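import Vale.Agent.P193.Bdl.B1

set_option linter.all false

/-! Frames in `A^ι` and membership in the elementary group. -/

namespace Vale.Agent.N193

open Matrix Vale.Agent.P193.BH

section loc
variable {A : Type} [Ring A]

/-- finitely many words that are pairwise separated on a finite set of ring elements -/
theorem loc (L : Leav A) (hL : L.Tiny) {R : Set A} (hR : R.Finite) {B : Type} {S : Set B}
    (hS : S.Finite) : ∃ w : B → List Bool, ∀ β ∈ S, ∀ β' ∈ S, β ≠ β' → ∀ r ∈ R,
      L.tw (w β) * r * L.sw (w β') = 0 := by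
  classical
  obtain ⟨C, hC⟩ := Leav.Tiny.unif hL hR
  set d : ℕ := hS.toFinset.card * (hR.toFinset.card * (2 * C)) with hd
  have key : ∀ T : Finset B, T ⊆ hS.toFinset → ∃ w : B → List.Vector Bool d,
      ∀ β ∈ T, ∀ β' ∈ T, β ≠ β' → ∀ r ∈ R, L.tw (w β).1 * r * L.sw (w β').1 = 0 := by
    intro T
    induction T using Finset.induction_on with
    | empty => intro _; exact ⟨fun _ => List.Vector.replicate d true, by simp⟩
    | insert b T hb ih =>
      intro hsub
      have hT : T ⊆ hS.toFinset := (Finset.subset_insert b T).trans hsub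
      obtain ⟨w, hw⟩ := ih hT
      set bad : Finset (List.Vector Bool d) := T.biUnion fun β => hR.toFinset.biUnion fun r =>
        (Finset.univ.filter fun w' => L.tw w'.1 * r * L.sw (w β).1 ≠ 0) ∪
        (Finset.univ.filter fun w' => L.tw (w β).1 * r * L.sw w'.1 ≠ 0) with hbad
      have hcard : bad.card ≤ d := by
        refine (Finset.card_biUnion_le_card_mul _ _ (hR.toFinset.card * (2 * C)) ?_).trans ?_
        · intro β _
          refine Finset.card_biUnion_le_card_mul _ _ _ ?_
          intro r hr
          have h := hC r (by simpa using hr) d (w β)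
          have e1 : (Finset.univ.filter fun w' : List.Vector Bool d =>
              L.tw w'.1 * r * L.sw (w β).1 ≠ 0).card ≤ C := by
            refine le_trans (le_of_eq ?_) h.1
            rw [← Set.ncard_coe_finset]; congr 1; ext x; simp
          have e2 : (Finset.univ.filter fun w' : List.Vector Bool d =>
              L.tw (w β).1 * r * L.sw w'.1 ≠ 0).card ≤ C := by
            refine le_trans (le_of_eq ?_) h.2
            rw [← Set.ncard_coe_finset]; congr 1; ext x; simp
          have := Finset.card_union_le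
            (Finset.univ.filter fun w' : List.Vector Bool d => L.tw w'.1 * r * L.sw (w β).1 ≠ 0)
            (Finset.univ.filter fun w' : List.Vector Bool d => L.tw (w β).1 * r * L.sw w'.1 ≠ 0)
          omega
        · exact Nat.mul_le_mul_right _ (Finset.card_le_card hT)
      have hlt : bad.card < (Finset.univ : Finset (List.Vector Bool d)).card := by
        rw [Finset.card_univ, card_vector, Fintype.card_bool]
        exact lt_of_le_of_lt hcard Nat.lt_two_pow_self
      obtain ⟨c, -, hc⟩ := Finset.exists_mem_notMem_of_card_lt_card hlt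
      have hc' : ∀ β ∈ T, ∀ r ∈ R, L.tw c.1 * r * L.sw (w β).1 = 0 ∧
          L.tw (w β).1 * r * L.sw c.1 = 0 := by
        intro β hβ r hr
        by_contra hcon
        refine hc ?_
        rw [hbad]
        simp only [Finset.mem_biUnion, Finset.mem_union, Finset.mem_filter, Finset.mem_univ,
          true_and, Set.Finite.mem_toFinset]
        exact ⟨β, hβ, r, hr, by tauto⟩
      refine ⟨Function.update w b c, ?_⟩
      intro β hβ β' hβ' hne r hr
      rcases Finset.mem_insert.1 hβ with rfl | h1 <;> rcases Finset.mem_insert.1 hβ' with rfl | h2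
      · exact absurd rfl hne
      · rw [Function.update_self, Function.update_of_ne hne.symm]; exact (hc' β' h2 r hr).1
      · rw [Function.update_self, Function.update_of_ne hne]; exact (hc' β h1 r hr).2
      · have n1 : β ≠ b := fun e => hb (by rw [← e]; exact h1)
        have n2 : β' ≠ b := fun e => hb (by rw [← e]; exact h2)
        rw [Function.update_of_ne n1, Function.update_of_ne n2]
        exact hw β h1 β' h2 hne r hr
  obtain ⟨w, hw⟩ := key hS.toFinset subset_rfl
  exact ⟨fun β => (w β).1, fun β hβ β' hβ' => hw β (by simpa using hβ) β' (by simpa using hβ')⟩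

end loc

section InS
variable {ι A : Type} [Ring A] [Fintype ι] [DecidableEq ι]

/-- the matrix `M` is an element of the subgroup `S` -/
def InS (S : Subgroup (Matrix ι ι A)ˣ) (M : Matrix ι ι A) : Prop := ∃ g ∈ S, g.val = M

variable {S : Subgroup (Matrix ι ι A)ˣ}

theorem InS.one : InS S 1 := ⟨1, S.one_mem, rfl⟩

theorem InS.mul {M N : Matrix ι ι A} (h : InS S M) (h' : InS S N) : InS S (M * N) := by
  obtain ⟨g, hg, rfl⟩ := h
  obtain ⟨g', hg', rfl⟩ := h'
  exact ⟨g * g', S.mul_mem hg hg', rfl⟩

theorem InS.mem {g : (Matrix ι ι A)ˣ} (h : InS S g.val) : g ∈ S := by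
  obtain ⟨g', hg', e⟩ := h
  rwa [← Units.ext e]

theorem InS.add {X Y : Matrix ι ι A} (h : InS S (1 + X)) (h' : InS S (1 + Y)) (hXY : X * Y = 0) :
    InS S (1 + (X + Y)) := by
  have := h.mul h'
  rwa [add_mul, mul_add, mul_add, one_mul, one_mul, mul_one, hXY, add_zero, add_assoc,
    add_comm Y X] at this

theorem mat_two [CharP A 2] (X : Matrix ι ι A) : X + X = 0 := by
  ext i j; exact CharTwo.add_self_eq_zero _

theorem InS.comm [CharP A 2] {X Y : Matrix ι ι A} (h : InS S (1 + X)) (h' : InS S (1 + Y))
    (hXX : X * X = 0) (hYY : Y * Y = 0) (hYX : Y * X = 0) : InS S (1 + X * Y) := by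
  have h1 := (h.mul h').mul (h.mul h')
  have e : (1 + X) * (1 + Y) * ((1 + X) * (1 + Y)) =
      1 + X * Y + ((X + X) + (Y + Y) + (X * Y + X * Y) + X * X + Y * Y + Y * X + X * X * Y +
        X * (Y * X) + X * (Y * Y) + Y * X * Y + X * (Y * X) * Y) := by noncomm_ring
  rw [e, mat_two X, mat_two Y, mat_two (X * Y), hXX, hYY, hYX] at h1
  simpa using h1

theorem InS.sum {κ : Type} (T : Finset κ) (X : κ → Matrix ι ι A) (h : ∀ k ∈ T, InS S (1 + X k))
    (h0 : ∀ k ∈ T, ∀ l ∈ T, X k * X l = 0) : InS S (1 + ∑ k ∈ T, X k) := by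
  classical
  induction T using Finset.induction_on with
  | empty => simpa using InS.one
  | insert a T ha ih =>
    rw [Finset.sum_insert ha]
    refine (h a (Finset.mem_insert_self _ _)).add
      (ih (fun k hk => h k (Finset.mem_insert_of_mem hk)) fun k hk l hl =>
        h0 k (Finset.mem_insert_of_mem hk) l (Finset.mem_insert_of_mem hl)) ?_
    rw [Finset.mul_sum]
    exact Finset.sum_eq_zero fun l hl =>
      h0 a (Finset.mem_insert_self _ _) l (Finset.mem_insert_of_mem hl)

theorem inE_single {i j : ι} (h : i ≠ j) (a : A) : InS (EGrp ι A) (1 + single i j a) :=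
  ⟨tv i j a, tv_mem_EGrp i j a, tv_val h a⟩

theorem inE_col (u : ι → A) (k : ι) (t : A) (hu : u k = 0) :
    InS (EGrp ι A) (1 + vecMulVec u (Pi.single k t)) := by
  have e : vecMulVec u (Pi.single k t) = ∑ i ∈ Finset.univ.erase k, single i k (u i * t) := by
    ext i j
    rw [Matrix.sum_apply, vecMulVec_apply]
    by_cases hj : j = k
    · subst hj
      by_cases hi : i = j
      · subst hi
        rw [hu, zero_mul]
        exact (Finset.sum_eq_zero fun x hx => by
          simp [single_apply, (Finset.mem_erase.1 hx).1]).symm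
      · rw [Finset.sum_eq_single i]
        · simp
        · intro b _ hb; simp [single_apply, hb]
        · intro h; exact absurd (Finset.mem_erase.2 ⟨hi, Finset.mem_univ _⟩) h
    · rw [Pi.single_eq_of_ne hj, mul_zero]
      exact (Finset.sum_eq_zero fun x _ => by simp [single_apply, Ne.symm hj]).symm
  rw [e]
  exact InS.sum _ _ (fun i hi => inE_single (Finset.mem_erase.1 hi).1 _) fun i _ l hl =>
    single_mul_single_of_ne _ _ _ _ (Finset.mem_erase.1 hl).1.symm _

theorem inE_row (f : ι → A) (k : ι) (s : A) (hf : f k = 0) :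
    InS (EGrp ι A) (1 + vecMulVec (Pi.single k s) f) := by
  have e : vecMulVec (Pi.single k s) f = ∑ j ∈ Finset.univ.erase k, single k j (s * f j) := by
    ext i j
    rw [Matrix.sum_apply, vecMulVec_apply]
    by_cases hi : i = k
    · subst hi
      by_cases hj : j = i
      · subst hj
        rw [hf, mul_zero]
        exact (Finset.sum_eq_zero fun x hx => by
          simp [single_apply, (Finset.mem_erase.1 hx).1]).symm
      · rw [Finset.sum_eq_single j]
        · simp
        · intro b _ hb; simp [single_apply, hb]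
        · intro h; exact absurd (Finset.mem_erase.2 ⟨hj, Finset.mem_univ _⟩) h
    · rw [Pi.single_eq_of_ne hi, zero_mul]
      exact (Finset.sum_eq_zero fun x _ => by simp [single_apply, Ne.symm hi]).symm
  rw [e]
  exact InS.sum _ _ (fun i hi => inE_single (Finset.mem_erase.1 hi).1.symm _) fun i hi l _ =>
    single_mul_single_of_ne _ _ _ _ (Finset.mem_erase.1 hi).1 _

theorem vv_zero {u f u' f' : ι → A} (h : f ⬝ᵥ u' = 0) :
    vecMulVec u f * vecMulVec u' f' = 0 := by
  rw [vecMulVec_mul_vecMulVec, h, zero_smul, vecMulVec_zero]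

theorem vv_one {u f u' f' : ι → A} (h : f ⬝ᵥ u' = 1) :
    vecMulVec u f * vecMulVec u' f' = vecMulVec u f' := by
  rw [vecMulVec_mul_vecMulVec, h, one_smul]

variable [CharP A 2]

theorem inE_free {u f : ι → A} (k : ι) (hu : u k = 0) (hf : f k = 0) (h : f ⬝ᵥ u = 0) :
    InS (EGrp ι A) (1 + vecMulVec u f) := by
  have := (inE_col u k 1 hu).comm (inE_row f k 1 hf) (vv_zero (by simp [hu]))
    (vv_zero (by simp [hf])) (vv_zero h)
  rwa [vv_one (by simp)] at this

/-- a transvection `1 + u f` with `f u = 0` is elementary when a basic vector `e_j s` with its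
functional `t e_j` is orthogonal to it -/
theorem inE_tvec [Nontrivial ι] {u f : ι → A} (h : f ⬝ᵥ u = 0) (j : ι) {s t : A}
    (hts : t * s = 1) (hu : t * u j = 0) (hf : f j * s = 0) :
    InS (EGrp ι A) (1 + vecMulVec u f) := by
  obtain ⟨k, hk⟩ := exists_ne j
  have h1 : InS (EGrp ι A) (1 + vecMulVec u (Pi.single j t)) := by
    have a1 := inE_col (u - Pi.single j (u j)) j t (by simp)
    have a2 : InS (EGrp ι A) (1 + vecMulVec (Pi.single j (u j)) (Pi.single j t)) :=
      inE_free k (by simp [hk]) (by simp [hk]) (by simp [hu])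
    have := a1.add a2 (vv_zero (by simp [hu]))
    rwa [← add_vecMulVec, sub_add_cancel] at this
  have h2 : InS (EGrp ι A) (1 + vecMulVec (Pi.single j s) f) := by
    have a1 := inE_row (f - Pi.single j (f j)) j s (by simp)
    have a2 : InS (EGrp ι A) (1 + vecMulVec (Pi.single j s) (Pi.single j (f j))) :=
      inE_free k (by simp [hk]) (by simp [hk]) (by simp [hf])
    have := a2.add a1 (vv_zero (by simp [hf]))
    rwa [← vecMulVec_add, add_sub_cancel] at this
  have := h1.comm h2 (vv_zero (by simp [hu])) (vv_zero (by simp [hf])) (vv_zero h)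
  rwa [vv_one (by simp [hts])] at this

end InS

section emb
variable {ι F A : Type} [Ring A] [Fintype ι] [DecidableEq ι] [Fintype F] [DecidableEq F]

/-- the embedding of matrices given by a frame -/
def embM (V : Matrix ι F A) (Φ : Matrix F ι A) (h : Φ * V = 1) :
    Matrix F F A →* Matrix ι ι A where
  toFun X := 1 + V * (X - 1) * Φ
  map_one' := by simp
  map_mul' X Y := by
    have e : V * (X - 1) * Φ * (V * (Y - 1) * Φ) = V * ((X - 1) * (Y - 1)) * Φ := by
      simp only [Matrix.mul_assoc]
      rw [← Matrix.mul_assoc Φ V, h, Matrix.one_mul]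
    have e2 : X * Y - 1 = (X - 1) + (Y - 1) + (X - 1) * (Y - 1) := by noncomm_ring
    rw [mul_add, add_mul, add_mul, e, e2, Matrix.mul_add, Matrix.mul_add, Matrix.add_mul,
      Matrix.add_mul]
    simp only [one_mul, mul_one]
    abel

theorem embM_mul (V : Matrix ι F A) (Φ : Matrix F ι A) (h : Φ * V = 1) (X : Matrix F F A) :
    embM V Φ h X * V = V * X := by
  change (1 + V * (X - 1) * Φ) * V = _
  rw [Matrix.add_mul, Matrix.mul_assoc _ Φ V, h, Matrix.mul_one, Matrix.one_mul, Matrix.mul_sub,
    Matrix.mul_one, add_sub_cancel]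

theorem emb_mem [CharP A 2] [Nontrivial ι] (V : Matrix ι F A) (Φ : Matrix F ι A) (h : Φ * V = 1)
    (j : ι) {s t : A} (hts : t * s = 1) (hV : ∀ a, t * V j a = 0) (hΦ : ∀ a, Φ a j * s = 0)
    {g : (Matrix F F A)ˣ} (hg : g ∈ EGrp F A) : Units.map (embM V Φ h) g ∈ EGrp ι A := by
  have : EGrp F A ≤ (EGrp ι A).comap (Units.map (embM V Φ h)) := by
    rw [EGrp_eq_closure (ι := F)]
    refine (Subgroup.closure_le _).2 ?_
    rintro _ ⟨a, b, r, hab, rfl⟩
    refine InS.mem (S := EGrp ι A) ?_
    have e : (Units.map (embM V Φ h) (tv a b r)).val =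
        1 + vecMulVec (fun i => V i a * r) (fun i => Φ b i) := by
      change 1 + V * ((tv a b r).val - 1) * Φ = _
      rw [tv_val hab, add_sub_cancel_left]
      congr 1
      ext i k
      rw [Matrix.mul_apply, vecMulVec_apply, Finset.sum_eq_single b]
      · rw [mul_single_apply_same]
      · intro c _ hc; rw [mul_single_apply_of_ne _ _ _ _ _ hc, zero_mul]
      · simp
    rw [e]
    refine inE_tvec ?_ j hts (by rw [← mul_assoc, hV, zero_mul]) (hΦ b)
    have h1 : (Φ * V) b a = 0 := by rw [h, one_apply_ne hab.symm]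
    rw [Matrix.mul_apply] at h1
    simp only [dotProduct, ← mul_assoc]
    rw [← Finset.sum_mul, h1, zero_mul]
  exact this hg

/-- permutation matrices -/
def pm (A : Type) [Ring A] : Equiv.Perm F →* Matrix F F A where
  toFun π := of fun a b => if a = π b then 1 else 0
  map_one' := by ext a b; simp only [one_apply, of_apply]; congr
  map_mul' π ρ := by
    ext a c
    simp only [Matrix.mul_apply, of_apply, mul_ite, mul_one, mul_zero, Finset.sum_ite_eq',
      Finset.mem_univ, if_true]
    exact if_congr Iff.rfl rfl rfl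

theorem pm_apply (π : Equiv.Perm F) (a b : F) : pm A π a b = if a = π b then 1 else 0 := rfl

theorem mul_pm {κ : Type} (V : Matrix κ F A) (π : Equiv.Perm F) (i : κ) (a : F) :
    (V * pm A π) i a = V i (π a) := by
  simp [Matrix.mul_apply, pm_apply]

theorem pm_mem [CharP A 2] (π : Equiv.Perm F) : (pm A).toHomUnits π ∈ EGrp F A := by
  induction π using Equiv.Perm.swap_induction_on with
  | one => rw [map_one]; exact one_mem _
  | swap_mul π a b hab ih =>
    rw [map_mul]
    refine mul_mem ?_ ih
    have : (pm A).toHomUnits (Equiv.swap a b) = tv a b (1 : A) * tv b a 1 * tv a b 1 := by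
      apply Units.ext
      rw [swap_val hab, MonoidHom.coe_toHomUnits]
      ext x y
      have h2 : (1 : A) + 1 = 0 := CharTwo.add_self_eq_zero 1
      have hba := hab.symm
      simp only [pm_apply, Matrix.add_apply, one_apply, single_apply]
      by_cases h4 : y = a
      · subst h4
        rw [Equiv.swap_apply_left]
        by_cases h1 : x = y
        · subst h1; simp [hab, hba, h2]
        · by_cases h3 : x = b
          · subst h3; simp [hab, hba]
          · simp [h1, h3, Ne.symm h1, Ne.symm h3]
      · by_cases h5 : y = b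
        · subst h5
          rw [Equiv.swap_apply_right]
          by_cases h1 : x = y
          · subst h1; simp [hab, hba, h2]
          · by_cases h3 : x = a
            · subst h3; simp [hab, hba]
            · simp [h1, h3, Ne.symm h1, Ne.symm h3]
        · rw [Equiv.swap_apply_of_ne_of_ne h4 h5]
          simp [Ne.symm h4, Ne.symm h5]
    rw [this]
    exact mul_mem (mul_mem (tv_mem_EGrp _ _ _) (tv_mem_EGrp _ _ _)) (tv_mem_EGrp _ _ _)

/-- the permutations of a frame, inside the elementary group -/
theorem exists_perm_hom [CharP A 2] [Nontrivial ι] (V : Matrix ι F A) (Φ : Matrix F ι A)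
    (h : Φ * V = 1) (j : ι) {s t : A} (hts : t * s = 1) (hV : ∀ a, t * V j a = 0)
    (hΦ : ∀ a, Φ a j * s = 0) :
    ∃ P : Equiv.Perm F →* EGrp ι A, ∀ π a,
      ((P π).1.val *ᵥ fun i => V i a) = fun i => V i (π a) := by
  refine ⟨((Units.map (embM V Φ h)).comp (pm A).toHomUnits).codRestrict _
    fun π => emb_mem V Φ h j hts hV hΦ (pm_mem π), fun π a => ?_⟩
  ext i
  have := congrFun (congrFun (embM_mul V Φ h (pm A π)) i) a
  rw [mul_pm] at this
  exact this

end emb

end Vale.Agent.N193
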