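import Vale.Agent.N193.Two

set_option linter.all false

/-! The elementary group on 84 indices is generated by elements of orders two and three. -/

namespace Vale.Agent.N193

open Matrix Vale.Agent.P193.BH

/-- a chain of 28 triangles -/
abbrev Ix : Type := Fin 28 × Fin 3

/-- rotation of all triangles -/
def zz : Equiv.Perm Ix :=
  ⟨fun p => (p.1, p.2 + 1), fun p => (p.1, p.2 + 2), by decide +kernel, by decide +kernel⟩

/-- links between consecutive triangles, with a twist at the end -/
def yf (p : Ix) : Ix :=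
  if p.2 = 1 then (if p.1 = 27 then (p.1, 2) else (p.1 + 1, 0))
  else if p.2 = 0 then (if p.1 = 0 then p else (p.1 - 1, 1))
  else (if p.1 = 27 then (p.1, 1) else p)

/-- the links as a permutation -/
def yy : Equiv.Perm Ix := ⟨yf, yf, by decide +kernel, by decide +kernel⟩

/-- rows of the nilpotent part -/
def pp (k : Fin 6) : Ix := if k = 0 then (6, 2) else (7, 2)

/-- columns of the nilpotent part -/
def qq (k : Fin 6) : Ix := (⟨14 + k, by omega⟩, 2)

/-- the region of rows -/
def RP (x : Ix) : Prop := 3 ≤ x.1 ∧ x.1 ≤ 10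

/-- the region of columns -/
def RQ (x : Ix) : Prop := 11 ≤ x.1 ∧ x.1 ≤ 22

instance : DecidablePred RP := fun x => by unfold RP; infer_instance
instance : DecidablePred RQ := fun x => by unfold RQ; infer_instance

/-- one step of the word -/
def nx (π : Equiv.Perm Ix) (b : Bool) : Equiv.Perm Ix :=
  cond b (π * yy * zz) (π * yy * zz * zz)

/-- the test along a word -/
def chk : List Bool → Equiv.Perm Ix → Bool
  | [], _ => true
  | b :: l, π => decide (∀ k, RP (π (pp k)) ∧ RQ (π (qq k))) && chk l (nx π b)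

/-- the word -/
def wd0 : List Bool :=
  [true, true, false, true, false, false, false, true, true, true, false, true, false, false]

/-- the value of the word -/
def w0 : Equiv.Perm Ix := wd0.foldl nx 1

theorem chk_wd0 : chk wd0 1 = true := by decide +kernel

theorem w0_fix : ∀ x, RP x ∨ RQ x → w0 x = x := by decide +kernel

theorem w0_pow : ∀ x, w0 (w0 (w0 (w0 (w0 (w0 (w0 (w0 x))))))) =
    (Equiv.swap (0, 2) (2, 0) * Equiv.swap (2, 0) (1, 1) : Equiv.Perm Ix) x := by decide +kernel

theorem pow_eight (π : Equiv.Perm Ix) (x : Ix) :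
    (π * π * (π * π) * (π * π * (π * π))) x = π (π (π (π (π (π (π (π x))))))) := rfl

theorem w0_eight : w0 * w0 * (w0 * w0) * (w0 * w0 * (w0 * w0)) =
    Equiv.swap (0, 2) (2, 0) * Equiv.swap (2, 0) (1, 1) :=
  Equiv.ext fun x => (pow_eight w0 x).trans (w0_pow x)

theorem yy_prod : ∀ x, yy x = (([0, 2, 4, 6, 8, 10, 12, 14, 16, 18, 20, 22, 24, 26] :
    List (Fin 28)).map fun i => Equiv.swap (i, 1) (yy (i, 1)) *
      Equiv.swap (i + 1, 1) (yy (i + 1, 1))).prod x := by decide +kernel

/-- the three-cycle used to isolate the `k`-th term -/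
def pk (k : Fin 6) : Equiv.Perm Ix := Equiv.swap (pp 0) (qq k) * Equiv.swap (qq k) (0, 0)

theorem pq_ne : ∀ k l, qq k ≠ pp l := by decide +kernel

theorem pk1 : ∀ k a l, pk k (qq a) ≠ pp l := by decide +kernel

theorem pk2 : ∀ k a l, qq a = pk k (pp l) → a = k ∧ l = 0 := by decide +kernel

theorem pk3 : ∀ k, qq k = pk k (pp 0) ∧ pp k ≠ pk k (qq 0) ∧ pp 0 ≠ qq k ∧ qq k ≠ (0, 0) ∧
    pp 0 ≠ (0, 0) := by decide +kernel

theorem yy_pq : ∀ k, yy (pp k) = pp k ∧ yy (qq k) = qq k := by decide +kernel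

theorem RP_RQ : ∀ x, RP x → ¬ RQ x := by decide +kernel

section perm
variable {T : Subgroup (Equiv.Perm Ix)}

/-- the indices not used by the nilpotent part -/
def Off (x : Ix) : Prop := ∀ k, x ≠ pp k ∧ x ≠ qq k

instance : DecidablePred Off := fun x => by unfold Off; infer_instance

theorem off_or : ∀ x, Off x ∨ yy x = x := by decide +kernel

theorem all_cy (hz : zz ∈ T) (h0 : Cy T (0, 2) (2, 0) (1, 1))
    (hy : ∀ u v w, Off u → Off v → Off w → Cy T u v w → Cy T (yy u) (yy v) (yy w)) :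
    ∀ u v w, u ≠ v → v ≠ w → u ≠ w → Cy T u v w := by
  have anchor : ∀ {b a' : Ix}, Sim T b a' → b ≠ a' → Off b → Off a' →
      (yy b = b ∨ yy b = a') → (yy a' = b ∨ yy a' = a') → ∀ x, Sim T b x → Sim T b (yy x) := by
    intro b a' s2 hne o2 o3 e2 e3 x hx
    have s : ∀ {t}, (t = b ∨ t = a') → Sim T b t := by
      rintro t (rfl | rfl)
      exacts [Or.inl rfl, s2]
    rcases off_or x with ox | ox
    · by_cases c1 : x = b
      · rw [c1]; exact s e2
      by_cases c2 : x = a'
      · rw [c2]; exact s e3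
      have := hy b a' x o2 o3 ox (s2.cy (s2.symm.trans hx) hne (Ne.symm c2) (Ne.symm c1))
      exact (s e3).trans (Or.inr ⟨_, this.rot⟩)
    · rwa [ox]
  have h1 : Cy T (0, 0) (2, 1) (1, 2) := h0.conj hz
  have h2 : Cy T (0, 1) (2, 2) (1, 0) := h1.conj hz
  have ay : ∀ (t : Fin 3) (x : Ix), Sim T (0, t) x → Sim T (0, t) (yy x) := by
    intro t
    fin_cases t
    · exact anchor (Or.inr ⟨_, h1.flip.rot.rot⟩) (by decide +kernel) (by decide +kernel)
        (by decide +kernel) (by decide +kernel) (by decide +kernel)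
    · exact anchor (Or.inr ⟨_, h2.flip.rot.rot⟩) (by decide +kernel) (by decide +kernel)
        (by decide +kernel) (by decide +kernel) (by decide +kernel)
    · intro x hx
      have s1 : Sim T (0, 2) (2, 0) := Or.inr ⟨_, h0⟩
      exact s1.trans (anchor (Or.inr ⟨_, h0.rot⟩) (by decide +kernel) (by decide +kernel)
        (by decide +kernel) (by decide +kernel) (by decide +kernel) x (s1.symm.trans hx))
  have az : ∀ (t : Fin 3) (i : Fin 28) (j : Fin 3), Sim T (0, t) (i, j) →
      Sim T (0, t + 1) (i, j + 1) := fun t i j h => h.conj hz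
  have key : ∀ i : Fin 28, ∃ t : Fin 3, ∀ j : Fin 3, Sim T (0, t + j) (i, j) := by
    intro i
    induction i using Fin.induction with
    | zero => exact ⟨0, fun j => Or.inl (by rw [zero_add])⟩
    | succ i ih =>
      obtain ⟨t, ht⟩ := ih
      have e : ∀ i : Fin 27, yy (i.castSucc, 1) = (i.succ, 0) := by decide +kernel
      have a0 := ay _ _ (ht 1)
      rw [e] at a0
      have a1 := az _ _ _ a0
      have a2 := az _ _ _ a1
      refine ⟨t + 1, fun j => ?_⟩
      fin_cases j
      · simpa using a0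
      · simpa using a1
      · simpa [add_assoc] using a2
  have base : ∀ t : Fin 3, Sim T (0, t) (0, t + 1) := by
    obtain ⟨t, ht⟩ := key 27
    have a0 := ay _ _ (ht 1)
    have e : yy (27, 1) = (27, 2) := by decide +kernel
    rw [e] at a0
    have a1 := a0.trans (ht 2).symm
    have a2 := az _ _ _ a1
    have a3 := az _ _ _ a2
    intro s
    have : ∀ s t : Fin 3, s = t + 1 ∧ s + 1 = t + 2 ∨ s = t + 1 + 1 ∧ s + 1 = t + 2 + 1 ∨
        s = t + 1 + 1 + 1 ∧ s + 1 = t + 2 + 1 + 1 := by decide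
    rcases this s t with ⟨e1, e2⟩ | ⟨e1, e2⟩ | ⟨e1, e2⟩ <;> rw [e2, e1]
    exacts [a1, a2, a3]
  have all : ∀ x : Ix, Sim T (0, 0) x := by
    rintro ⟨i, j⟩
    obtain ⟨t, ht⟩ := key i
    refine Sim.trans ?_ (ht j)
    generalize t + j = s
    fin_cases s
    · exact Or.inl rfl
    · exact base 0
    · exact (base 0).trans (base 1)
  intro u v w h1 h2 h3
  exact ((all u).symm.trans (all v)).cy ((all v).symm.trans (all w)) h1 h2 h3

end perm

section main
variable {A : Type} [Ring A] [Nontrivial A] [CharP A 2]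

/-- matrices supported in the two regions -/
def Supp (X : Matrix Ix Ix A) : Prop := ∀ a b, X a b ≠ 0 → RP a ∧ RQ b

theorem Supp.mul {X Y : Matrix Ix Ix A} (h : Supp X) (h' : Supp Y) : X * Y = 0 := by
  ext a c
  rw [Matrix.mul_apply]
  refine Finset.sum_eq_zero fun b _ => ?_
  by_cases e : X a b = 0
  · rw [e, zero_mul]
  by_cases e' : Y b c = 0
  · rw [e', mul_zero]
  exact absurd (h a b e).2 (RP_RQ b (h' b c e').1)

theorem Supp.add {X Y : Matrix Ix Ix A} (h : Supp X) (h' : Supp Y) : Supp (X + Y) := by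
  intro a b e
  by_cases e1 : X a b = 0
  · rw [Matrix.add_apply, e1, zero_add] at e; exact h' a b e
  · exact h a b e1

theorem pm_mul_apply (π : Equiv.Perm Ix) (X : Matrix Ix Ix A) (a b : Ix) :
    (pm A π * X) (π a) b = X a b := by
  simp [Matrix.mul_apply, pm_apply]

theorem Supp.comm {X : Matrix Ix Ix A} (h : Supp X) {π : Equiv.Perm Ix}
    (hπ : ∀ x, RP x ∨ RQ x → π x = x) : pm A π * X = X * pm A π := by
  ext a b
  obtain ⟨a, rfl⟩ := π.surjective a
  rw [pm_mul_apply, mul_pm]
  by_cases e : X a b = 0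
  · rw [e]
    by_contra e'
    have h1 := h _ _ (Ne.symm e')
    rw [π.injective (hπ _ (Or.inl h1.1)), π.injective (hπ _ (Or.inr h1.2))] at e'
    exact e' e.symm
  · rw [hπ _ (Or.inl (h _ _ e).1), hπ _ (Or.inr (h _ _ e).2)]

theorem mod_gen_aux (a : Fin 6 → A) (ha0 : a 0 = 1) (hgen : Subring.closure (Set.range a) = ⊤) :
    ∃ y c : EGrp Ix A, orderOf y = 2 ∧ orderOf c = 3 ∧ Subgroup.closure {y, c} = ⊤ := by
  classical
  set N : Matrix Ix Ix A := ∑ k, single (pp k) (qq k) (a k) with hN
  have hconj : ∀ π : Equiv.Perm Ix, pm A π * N * pm A π⁻¹ =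
      ∑ k, single (π (pp k)) (π (qq k)) (a k) := by
    intro π
    simp only [hN, Finset.mul_sum, Finset.sum_mul, pm_conj]
  have hcomm : ∀ π : Equiv.Perm Ix, (∀ k, π (pp k) = pp k ∧ π (qq k) = qq k) →
      pm A π * N = N * pm A π := by
    intro π h
    have := hconj π
    simp only [(h _).1, (h _).2] at this
    rw [← hN] at this
    conv_rhs => rw [← this]
    rw [mul_assoc, ← map_mul, inv_mul_cancel, map_one, mul_one]
  have hNN : N * N = 0 := by
    rw [hN, Finset.sum_mul_sum]
    exact Finset.sum_eq_zero fun k _ => Finset.sum_eq_zero fun l _ =>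
      single_mul_single_of_ne _ _ _ _ (pq_ne k l) _
  have sq1 : ∀ X : Matrix Ix Ix A, X * X = 0 → (1 + X) * (1 + X) = 1 := by
    intro X h
    rw [add_mul, mul_add, mul_add, one_mul, one_mul, mul_one, h, add_zero, add_assoc, mat_two,
      add_zero]
  obtain ⟨n, hn, hnv⟩ : InS (EGrp Ix A) (1 + N) :=
    InS.sum _ _ (fun k _ => inE_single (pq_ne k k).symm _) fun k _ l _ =>
      single_mul_single_of_ne _ _ _ _ (pq_ne k l) _
  set P := (pm A : Equiv.Perm Ix →* _).toHomUnits with hP
  have hPv : ∀ π, (P π).val = pm A π := fun _ => rfl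
  set y : (Matrix Ix Ix A)ˣ := n * P yy with hy
  set S : Subgroup (Matrix Ix Ix A)ˣ := Subgroup.closure {y, P zz} with hS
  have hyS : y ∈ S := Subgroup.subset_closure (by simp)
  have hzS : P zz ∈ S := Subgroup.subset_closure (by simp)
  have hnc : ∀ π : Equiv.Perm Ix, (∀ k, π (pp k) = pp k ∧ π (qq k) = qq k) →
      P π * n = n * P π := by
    intro π h
    apply Units.ext
    rw [Units.val_mul, Units.val_mul, hnv, hPv, mul_add, add_mul, hcomm π h, mul_one, one_mul]
  -- the word
  let Good : Equiv.Perm Ix → Prop := fun π => ∃ X, Supp X ∧ InS S ((1 + X) * pm A π)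
  have gz : ∀ π, Good π → Good (π * zz) := by
    rintro π ⟨X, h1, h2⟩
    exact ⟨X, h1, by rw [map_mul, ← mul_assoc]; exact h2.mul ⟨_, hzS, rfl⟩⟩
  have gy : ∀ π, Good π → (∀ k, RP (π (pp k)) ∧ RQ (π (qq k))) → Good (π * yy) := by
    rintro π ⟨X, h1, h2⟩ h
    have h3 : Supp (pm A π * N * pm A π⁻¹) := by
      rw [hconj]
      intro u v e
      rw [Matrix.sum_apply] at e
      obtain ⟨k, -, hk⟩ := Finset.exists_ne_zero_of_sum_ne_zero e
      rw [single_apply] at hk
      have : π (pp k) = u ∧ π (qq k) = v := by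
        by_contra hc; exact hk (if_neg hc)
      rw [← this.1, ← this.2]; exact h k
    refine ⟨_, h1.add h3, ?_⟩
    have h4 := h2.mul ⟨y, hyS, rfl⟩
    have e1 : pm A π * (1 + N) = (1 + pm A π * N * pm A π⁻¹) * pm A π := by
      rw [add_mul, mul_assoc (pm A π * N), ← map_mul, inv_mul_cancel, map_one, mul_one, mul_add,
        mul_one, one_mul]
    have e2 : (1 + X) * (1 + pm A π * N * pm A π⁻¹) = 1 + (X + pm A π * N * pm A π⁻¹) := by
      rw [add_mul, mul_add X, h1.mul h3, one_mul, mul_one, add_zero]; abel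
    rwa [hy, Units.val_mul, hnv, hPv, mul_assoc, ← mul_assoc (pm A π), e1, mul_assoc,
      ← map_mul, ← mul_assoc, e2] at h4
  have gw : ∀ (l : List Bool) (π : Equiv.Perm Ix), Good π → chk l π = true →
      Good (l.foldl nx π) := by
    intro l
    induction l with
    | nil => exact fun π h _ => h
    | cons b l ih =>
      intro π h hc
      simp only [chk, Bool.and_eq_true, decide_eq_true_eq] at hc
      refine ih _ ?_ hc.2
      cases b
      · exact gz _ (gz _ (gy π h hc.1))
      · exact gz _ (gy π h hc.1)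
  set T : Subgroup (Equiv.Perm Ix) := S.comap P with hT
  have hw2 : w0 * w0 ∈ T := by
    obtain ⟨X, h1, h2⟩ : Good w0 := gw wd0 1 ⟨0, fun _ _ e => absurd rfl e,
      by simpa using InS.one⟩ chk_wd0
    have h3 := h2.mul h2
    have e : pm A w0 * (1 + X) = (1 + X) * pm A w0 := by
      rw [mul_add, add_mul, h1.comm w0_fix, mul_one, one_mul]
    rw [mul_assoc, ← mul_assoc (pm A w0), e, mul_assoc, ← mul_assoc, sq1 X (h1.mul h1), one_mul,
      ← map_mul] at h3
    exact InS.mem (S := S) h3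
  have h0 : Cy T (0, 2) (2, 0) (1, 1) := by
    refine ⟨by decide +kernel, by decide +kernel, by decide +kernel, ?_⟩
    have := mul_mem (mul_mem hw2 hw2) (mul_mem hw2 hw2)
    rwa [w0_eight] at this
  have hall := all_cy (T := T) hzS h0 (fun u v w o1 o2 o3 h => h.map yy (by
    have h1 : P (Equiv.swap u v * Equiv.swap v w) ∈ S := h.2.2.2
    have h2 := hnc (yy * (Equiv.swap u v * Equiv.swap v w) * yy⁻¹) (fun k => by
      have a1 := (yy_pq k).1
      have a2 := (yy_pq k).2
      have b1 : yy⁻¹ (pp k) = pp k := by rw [Equiv.Perm.inv_eq_iff_eq, a1]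
      have b2 : yy⁻¹ (qq k) = qq k := by rw [Equiv.Perm.inv_eq_iff_eq, a2]
      constructor
      · rw [Equiv.Perm.mul_apply, Equiv.Perm.mul_apply, b1,
          cy4 (o1 k).1.symm (o2 k).1.symm (o3 k).1.symm, a1]
      · rw [Equiv.Perm.mul_apply, Equiv.Perm.mul_apply, b2,
          cy4 (o1 k).2.symm (o2 k).2.symm (o3 k).2.symm, a2])
    have h3 := mul_mem (mul_mem hyS h1) (inv_mem hyS)
    change P _ ∈ S
    convert h3 using 1
    rw [← mul_inv_cancel_right (P _) n, h2, hy, map_mul, map_mul, map_inv]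
    group))
  have hyT : yy ∈ T := by
    rw [Equiv.ext yy_prod]
    refine list_prod_mem fun x hx => ?_
    obtain ⟨i, -, rfl⟩ := List.mem_map.1 hx
    have e : ∀ i : Fin 28, (i, (1 : Fin 3)) ≠ yy (i, 1) := by decide +kernel
    exact two_swaps hall (e i) (e (i + 1))
  have hNS : InS S (1 + N) := by
    refine ⟨y * (P yy)⁻¹, mul_mem hyS (inv_mem hyT), ?_⟩
    rw [hy, mul_inv_cancel_right, hnv]
  have h4 : ∀ i j l : Ix, ∃ x, x ≠ i ∧ x ≠ j ∧ x ≠ l := by
    intro i j l
    have hcard : ({i, j, l} : Finset Ix).card < (Finset.univ : Finset Ix).card :=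
      lt_of_le_of_lt Finset.card_le_three (by simp)
    obtain ⟨x, -, hx⟩ := Finset.exists_mem_notMem_of_card_lt_card hcard
    simp only [Finset.mem_insert, Finset.mem_singleton, not_or] at hx
    exact ⟨x, hx⟩
  have h3 : ∀ i j : Ix, ∃ l, l ≠ i ∧ l ≠ j := fun i j =>
    (h4 i j j).imp fun _ h => ⟨h.1, h.2.1⟩
  have hk : ∀ k i j, i ≠ j → tv i j (a k) ∈ S := by
    intro k
    have c1 : pk k ∈ T := (hall _ _ _ (pk3 k).2.2.1 (pk3 k).2.2.2.1 (pk3 k).2.2.2.2).2.2.2
    have c2 := InS.conj (π := pk k) c1 hNS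
    rw [hconj] at c2
    have c3 := InS.extract hNS c2 pq_ne (fun k' l => (pk k).injective.ne (pq_ne k' l)) (pk1 k)
      (pk3 k).1 (pk2 k)
    rw [ha0, mul_one] at c3
    have := spread_abs h3 (Pr := fun i j => InS S (1 + single i j (a k))) ?_ ?_ (pk3 k).2.1 c3
    · intro i j hij
      exact InS.mem (by rw [tv_val hij]; exact this i j hij)
    · intro i j hij h l hl
      by_cases e : j = l
      · rwa [← e]
      obtain ⟨x, x1, x2, x3⟩ := h4 i j l
      have := InS.conj (hall j l x e x3.symm x2.symm).2.2.2 h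
      rwa [pm_conj, cy1 e x2.symm, cy4 hij hl x1.symm] at this
    · intro i j hij h l hl
      by_cases e : i = l
      · rwa [← e]
      obtain ⟨x, x1, x2, x3⟩ := h4 i j l
      have := InS.conj (hall i l x e x3.symm x1.symm).2.2.2 h
      rwa [pm_conj, cy1 e x1.symm, cy4 hij.symm hl.symm x2.symm] at this
  have hle : EGrp Ix A ≤ S := by
    refine egrp_le h3 hgen (by rw [← ha0]; exact hk 0) ?_
    rintro _ ⟨k, rfl⟩
    exact hk k
  have hyE : y ∈ EGrp Ix A := mul_mem hn (pm_mem _)
  refine ⟨⟨y, hyE⟩, ⟨P zz, pm_mem _⟩, ?_, ?_, ?_⟩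
  · rw [← Subgroup.orderOf_coe]
    refine orderOf_eq_prime ?_ fun e => ?_
    · change y ^ 2 = 1
      have e1 : n * n = 1 := Units.ext (by rw [Units.val_mul, hnv, sq1 N hNN]; rfl)
      have e2 : yy * yy = 1 := Equiv.ext yy.left_inv
      rw [pow_two, hy, mul_assoc, ← mul_assoc (P yy), hnc yy yy_pq, mul_assoc, ← mul_assoc, e1,
        ← map_mul, e2, map_one, mul_one]
    · change y = 1 at e
      have e0 : (1 + N) * pm A yy = 1 := by
        rw [← hnv, ← hPv, ← Units.val_mul, ← hy, e, Units.val_one]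
      have e1 : ((1 + N) * pm A yy) (0, 1) (0, 1) = (1 : Matrix Ix Ix A) (0, 1) (0, 1) := by
        rw [e0]
      rw [mul_pm, Matrix.add_apply, one_apply_ne (by decide), hN,
        Matrix.sum_apply, Finset.sum_eq_zero, add_zero, one_apply_eq] at e1
      · exact zero_ne_one e1
      · intro k _
        have : ∀ k, pp k ≠ (0, 1) := by decide
        rw [single_apply, if_neg fun h => this k h.1]
  · rw [← Subgroup.orderOf_coe]
    haveI : Fact (Nat.Prime 3) := ⟨Nat.prime_three⟩
    refine orderOf_eq_prime ?_ fun e => ?_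
    · change P zz ^ 3 = 1
      have : zz ^ 3 = 1 := Equiv.ext (by decide +kernel)
      rw [← map_pow, this, map_one]
    · change P zz = 1 at e
      have h1 : pm A zz = pm A 1 := (congrArg Units.val e).trans (map_one (pm A)).symm
      have := congrArg (fun π : Equiv.Perm Ix => π (0, 0)) (pm_injective h1)
      exact absurd this (by decide)
  · rw [eq_top_iff]
    rintro ⟨x, hx⟩ -
    have hm : S = (Subgroup.closure {(⟨y, hyE⟩ : EGrp Ix A), ⟨P zz, pm_mem _⟩}).map
        (EGrp Ix A).subtype := by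
      rw [MonoidHom.map_closure, Set.image_pair]; rfl
    have := hle hx
    rw [hm] at this
    obtain ⟨z, hz, e⟩ := this
    have : z = ⟨x, hx⟩ := Subtype.ext e
    rwa [← this]

theorem mod_gen [Algebra (ZMod 2) A] (hfp : FPAlg A) (L : Leav A) (hL : L.Tiny) :
    ∃ y c : EGrp Ix A, orderOf y = 2 ∧ orderOf c = 3 ∧ Subgroup.closure {y, c} = ⊤ := by
  obtain ⟨a, ha0, hgen⟩ := five_gen hfp L hL
  exact mod_gen_aux a ha0 hgen

end main

end Vale.Agent.N193
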