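import Vale.Agent.P193.H870.Main
import Mathlib.GroupTheory.SemidirectProduct

set_option linter.all false

/-! The wreath product over the cosets of a subgroup has decidable word problem. -/

namespace Vale.Agent.N193

open Vale.Agent.P193.BH Vale.Agent.P193.H870

universe u

theorem par_computable {α : Type} [Primcodable α] {p : α → ℕ → Prop} [∀ a k, Decidable (p a k)]
    (hp : ComputablePred fun x : α × ℕ => p x.1 x.2) {b : α → ℕ} (hb : Computable b) :
    ComputablePred fun a => (∑ j ∈ Finset.range (b a), if p a j then (1 : ZMod 2) else 0) = 0 := by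
  have hd : Computable fun x : α × ℕ => decide (p x.1 x.2) := by
    obtain ⟨_, h⟩ := hp
    exact h.of_eq fun a => by congr
  refine ⟨fun a => inferInstance, ?_⟩
  have h1 : Computable fun a =>
      (Nat.rec true (fun k r => cond (decide (p a k)) (!r) r) (b a) : Bool) := by
    refine Computable.nat_rec
      (h := fun (a : α) (kr : ℕ × Bool) => cond (decide (p a kr.1)) (!kr.2) kr.2)
      hb (Computable.const true) ?_
    refine Computable.cond
      (hd.comp (Computable.pair Computable.fst (Computable.fst.comp Computable.snd)))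
      (Primrec.not.to_comp.comp (Computable.snd.comp Computable.snd))
      (Computable.snd.comp Computable.snd)
  refine h1.of_eq fun a => ?_
  have key : ∀ m : ℕ, (Nat.rec true (fun k r => cond (decide (p a k)) (!r) r) m : Bool) =
      decide ((∑ j ∈ Finset.range m, if p a j then (1 : ZMod 2) else 0) = 0) := by
    intro m
    induction m with
    | zero => simp
    | succ m ih =>
      have : (Nat.rec true (fun k r => cond (decide (p a k)) (!r) r) (m + 1) : Bool) =
          cond (decide (p a m)) (!(Nat.rec true (fun k r => cond (decide (p a k)) (!r) r) m : Bool))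
            (Nat.rec true (fun k r => cond (decide (p a k)) (!r) r) m : Bool) := rfl
      rw [this, ih, Finset.sum_range_succ]
      generalize (∑ j ∈ Finset.range m, if p a j then (1 : ZMod 2) else 0) = s
      by_cases h : p a m
      · simp only [h, decide_true, cond_true, if_true]
        revert s; decide
      · simp only [h, decide_false, cond_false, if_false, add_zero]
  exact key _

variable {n : ℕ} {G : Type u} [Group G]

/-- value of a word -/
def vl {m : ℕ} {Γ : Type*} [Group Γ] (f : Fin m → Γ) (w : List (Fin m × Bool)) : Γ :=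
  FreeGroup.lift f (FreeGroup.mk w)

theorem vl_append {m : ℕ} {Γ : Type*} [Group Γ] (f : Fin m → Γ) (w w' : List (Fin m × Bool)) :
    vl f (w ++ w') = vl f w * vl f w' := by
  simp only [vl]; rw [← FreeGroup.mul_mk, map_mul]

theorem vl_inv {m : ℕ} {Γ : Type*} [Group Γ] (f : Fin m → Γ) (w : List (Fin m × Bool)) :
    vl f (FreeGroup.invRev w) = (vl f w)⁻¹ := by
  simp only [vl]; rw [← FreeGroup.inv_mk, map_inv]

theorem vl_single {m : ℕ} {Γ : Type*} [Group Γ] (f : Fin m → Γ) (i : Fin m) (b : Bool) :
    vl f [(i, b)] = cond b (f i) (f i)⁻¹ := by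
  simp [vl]

theorem vl_map {m : ℕ} {Γ Δ : Type*} [Group Γ] [Group Δ] (ψ : Γ →* Δ) (f : Fin m → Γ)
    (w : List (Fin m × Bool)) : vl (fun i => ψ (f i)) w = ψ (vl f w) := by
  have : (FreeGroup.lift fun i => ψ (f i)) = ψ.comp (FreeGroup.lift f) :=
    FreeGroup.ext_hom _ _ fun i => by simp
  simp only [vl, this, MonoidHom.comp_apply]

/-- the wreath product over the cosets of `H` -/
abbrev Wr (H : Subgroup G) : Type u :=
  SemidirectProduct ((G ⧸ H) → Multiplicative (ZMod 2)) G mulAutArrow

open Classical in
/-- the lamp at the trivial coset -/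
noncomputable def lamp (H : Subgroup G) : (G ⧸ H) → Multiplicative (ZMod 2) :=
  fun x => Multiplicative.ofAdd (if ((1 : G) : G ⧸ H) = x then 1 else 0)

open Classical in
theorem lamp_smul (H : Subgroup G) (g : G) (x : G ⧸ H) :
    mulAutArrow g (lamp H) x = Multiplicative.ofAdd (if (g : G ⧸ H) = x then 1 else 0) := by
  change lamp H (g⁻¹ • x) = _
  simp only [lamp]
  congr 2
  rw [eq_inv_smul_iff]
  simp

theorem lamp_sq (H : Subgroup G) : lamp H * lamp H = 1 := by
  ext x
  simp only [lamp, Pi.mul_apply, ← ofAdd_add, CharTwo.add_self_eq_zero]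
  rfl

theorem lamp_ne (H : Subgroup G) : lamp H ≠ 1 := fun h => by
  have := congrFun h ((1 : G) : G ⧸ H)
  simp only [lamp, if_true, Pi.one_apply] at this
  exact absurd this (by decide)

theorem lamp_comm (H : Subgroup G) (g : G) :
    Commute (SemidirectProduct.inr g : Wr H) (SemidirectProduct.inl (lamp H)) ↔ g ∈ H := by
  classical
  have e : Commute (SemidirectProduct.inr g : Wr H) (SemidirectProduct.inl (lamp H)) ↔
      mulAutArrow g (lamp H) = lamp H := by
    rw [← SemidirectProduct.inl_inj (φ := (mulAutArrow : G →* _)), SemidirectProduct.inl_aut,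
      map_inv, mul_inv_eq_iff_eq_mul]
    rfl
  rw [e]
  constructor
  · intro h
    have := congrFun h (g : G ⧸ H)
    rw [lamp_smul, if_pos rfl, lamp] at this
    by_contra hg
    rw [if_neg (fun e => hg (by simpa using QuotientGroup.eq.1 e))] at this
    exact absurd this (by decide)
  · intro h
    ext x
    have e1 : (g : G ⧸ H) = ((1 : G) : G ⧸ H) :=
      (QuotientGroup.eq.2 (by simpa using h)).symm
    rw [lamp_smul, lamp, e1]

/-- generators of the restricted wreath product -/
noncomputable def gen (f : Fin n → G) (H : Subgroup G) : Fin (n + 1) → Wr H :=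
  Fin.cons (SemidirectProduct.inl (lamp H)) fun i => SemidirectProduct.inr (f i)

/-- delete the lamp letters -/
def strip (w : List (Fin (n + 1) × Bool)) : List (Fin n × Bool) :=
  w.flatMap fun p => Fin.cases (motive := fun _ => List (Fin n × Bool)) [] (fun i => [(i, p.2)]) p.1

theorem strip_primrec : Primrec (strip : List (Fin (n + 1) × Bool) → _) := by
  unfold strip
  refine Primrec.list_flatMap Primrec.id ?_
  apply Primrec₂.mk
  exact (Primrec.dom_finite fun p : Fin (n + 1) × Bool =>
    Fin.cases (motive := fun _ => List (Fin n × Bool)) [] (fun i => [(i, p.2)]) p.1).comp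
      Primrec.snd

open Classical in
theorem vl_gen (f : Fin n → G) (H : Subgroup G) (w : List (Fin (n + 1) × Bool)) :
    (vl (gen f H) w).right = vl f (strip w) ∧ ∀ x, (vl (gen f H) w).left x =
      Multiplicative.ofAdd (∑ j ∈ Finset.range w.length,
        if (w.getD j (0, true)).1 = 0 ∧ ((vl f (strip (w.take j)) : G) : G ⧸ H) = x
          then (1 : ZMod 2) else 0) := by
  induction w using List.reverseRecOn with
  | nil => exact ⟨rfl, fun x => rfl⟩
  | append_singleton w p ih =>
    obtain ⟨i, b⟩ := p
    have es : strip (w ++ [(i, b)]) = strip w ++ strip [(i, b)] := List.flatMap_append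
    have e1 : ∀ x : G ⧸ H, (∑ j ∈ Finset.range (w ++ [(i, b)]).length,
        if ((w ++ [(i, b)]).getD j (0, true)).1 = 0 ∧
          ((vl f (strip ((w ++ [(i, b)]).take j)) : G) : G ⧸ H) = x then (1 : ZMod 2) else 0) =
        (∑ j ∈ Finset.range w.length, if (w.getD j (0, true)).1 = 0 ∧
          ((vl f (strip (w.take j)) : G) : G ⧸ H) = x then (1 : ZMod 2) else 0) +
        if i = 0 ∧ ((vl f (strip w) : G) : G ⧸ H) = x then 1 else 0 := by
      intro x
      rw [List.length_append, List.length_singleton, Finset.sum_range_succ]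
      congr 1
      · refine Finset.sum_congr rfl fun j hj => ?_
        have hj' := Finset.mem_range.1 hj
        rw [List.getD_append _ _ _ _ hj', List.take_append_of_le_length hj'.le]
      · rw [List.getD_append_right _ _ _ _ le_rfl, List.take_left']
        · simp
        · rfl
    rw [vl_append, es, vl_append, vl_single, SemidirectProduct.mul_right, ih.1]
    simp only [e1, SemidirectProduct.mul_left, Pi.mul_apply, ih.1, ih.2, ofAdd_add]
    induction i using Fin.cases with
    | zero =>
      have e2 : cond b (gen f H 0) (gen f H 0)⁻¹ = SemidirectProduct.inl (lamp H) := by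
        cases b
        · change (SemidirectProduct.inl (lamp H) : Wr H)⁻¹ = _
          rw [← map_inv, inv_eq_of_mul_eq_one_right (lamp_sq H)]
        · rfl
      rw [e2]
      refine ⟨rfl, fun x => ?_⟩
      rw [SemidirectProduct.left_inl, lamp_smul]
      simp
    | succ i =>
      have e2 : cond b (gen f H i.succ) (gen f H i.succ)⁻¹ =
          SemidirectProduct.inr (cond b (f i) (f i)⁻¹) := by
        cases b
        · exact (map_inv _ _).symm
        · rfl
      rw [e2]
      refine ⟨?_, fun x => ?_⟩
      · rw [SemidirectProduct.right_inr, ← vl_single]; rfl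
      · rw [SemidirectProduct.left_inr, map_one]
        simp [Fin.succ_ne_zero]

theorem wr_dec (f : Fin n → G) (H : Subgroup G)
    (h1 : ComputablePred fun w : List (Fin n × Bool) => vl f w = 1)
    (h2 : ComputablePred fun w : List (Fin n × Bool) => vl f w ∈ H) :
    ComputablePred fun w : List (Fin (n + 1) × Bool) => vl (gen f H) w = 1 := by
  classical
  have hQ : ComputablePred fun x : (List (Fin (n + 1) × Bool) × ℕ) × ℕ =>
      (x.1.1.getD x.2 (0, true)).1 = 0 ∧
        ((vl f (strip (x.1.1.take x.2)) : G) : G ⧸ H) = vl f (strip (x.1.1.take x.1.2)) := by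
    refine CI.pand ?_ ?_
    · refine CI.pcomp (p := fun p : Fin (n + 1) × Bool => p.1 = 0)
        (CI.fin _).computablePred ?_
      exact ((Primrec.list_getD (0, true)).comp (Primrec.fst.comp Primrec.fst) Primrec.snd).to_comp
    · refine (CI.pcomp h2 (f := fun x : (List (Fin (n + 1) × Bool) × ℕ) × ℕ =>
        FreeGroup.invRev (strip (x.1.1.take x.2)) ++ strip (x.1.1.take x.1.2)) ?_).of_eq
          fun x => ?_
      · refine (Primrec.list_append.comp (primrec_invRev'.comp (strip_primrec.comp ?_))
          (strip_primrec.comp ?_)).to_comp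
        · exact Primrec.list_take.comp Primrec.snd (Primrec.fst.comp Primrec.fst)
        · exact Primrec.list_take.comp (Primrec.snd.comp Primrec.fst)
            (Primrec.fst.comp Primrec.fst)
      · rw [vl_append, vl_inv, QuotientGroup.eq]
  have hP := par_computable (p := fun (x : List (Fin (n + 1) × Bool) × ℕ) (j : ℕ) =>
    (x.1.getD j (0, true)).1 = 0 ∧
      ((vl f (strip (x.1.take j)) : G) : G ⧸ H) = vl f (strip (x.1.take x.2))) hQ
    (b := fun x => x.1.length) (Primrec.list_length.comp Primrec.fst).to_comp
  have hB := CI.pball (p := fun (w : List (Fin (n + 1) × Bool)) (i : ℕ) =>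
    (∑ j ∈ Finset.range w.length, if (w.getD j (0, true)).1 = 0 ∧
      ((vl f (strip (w.take j)) : G) : G ⧸ H) = vl f (strip (w.take i)) then (1 : ZMod 2)
        else 0) = 0) hP (b := fun w => w.length) Primrec.list_length.to_comp
  refine (CI.pand (CI.pcomp h1 strip_primrec.to_comp) hB).of_eq fun w => ?_
  obtain ⟨a1, a2⟩ := vl_gen f H w
  constructor
  · rintro ⟨b1, b2⟩
    refine SemidirectProduct.ext (funext fun x => ?_) (a1.trans b1)
    rw [a2]
    change _ = Multiplicative.ofAdd (0 : ZMod 2)
    congr 1
    by_contra hne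
    obtain ⟨j, hj, hj'⟩ := Finset.exists_ne_zero_of_sum_ne_zero hne
    have e : ((vl f (strip (w.take j)) : G) : G ⧸ H) = x := by
      by_contra hc
      exact hj' (if_neg fun h => hc h.2)
    have := b2 j (Finset.mem_range.1 hj)
    rw [e] at this
    exact hne this
  · intro h
    rw [h] at a1 a2
    exact ⟨a1.symm, fun i _ => (Multiplicative.ofAdd.injective (a2 _)).symm⟩

/-- an overgroup with decidable word problem in which `H` is the centraliser of an involution -/
theorem exists_over (f : Fin n → G) (H : Subgroup G)
    (hf : Subgroup.closure (Set.range f) = ⊤)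
    (h1 : ComputablePred fun w : List (Fin n × Bool) => vl f w = 1)
    (h2 : ComputablePred fun w : List (Fin n × Bool) => vl f w ∈ H) :
    ∃ (Γ : Type u) (_ : Group Γ) (f' : Fin (n + 1) → Γ), Subgroup.closure (Set.range f') = ⊤ ∧
      (ComputablePred fun w : List (Fin (n + 1) × Bool) => vl f' w = 1) ∧
      ∃ (ψ : G →* Γ) (t : Γ), Function.Injective ψ ∧ orderOf t = 2 ∧
        ∀ g, g ∈ H ↔ Commute (ψ g) t := by
  set S := Subgroup.closure (Set.range (gen f H)) with hS
  have hm : ∀ i, gen f H i ∈ S := fun i => Subgroup.subset_closure ⟨i, rfl⟩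
  have hr : ∀ g, (SemidirectProduct.inr g : Wr H) ∈ S := by
    intro g
    have : (⊤ : Subgroup G) ≤ S.comap SemidirectProduct.inr := by
      rw [← hf, Subgroup.closure_le]
      rintro _ ⟨i, rfl⟩
      exact hm i.succ
    exact this trivial
  refine ⟨S, inferInstance, fun i => ⟨gen f H i, hm i⟩, ?_, ?_,
    SemidirectProduct.inr.codRestrict S hr, ⟨gen f H 0, hm 0⟩, ?_, ?_, fun g => ?_⟩
  · rw [← Subgroup.closure_closure_coe_preimage (k := Set.range (gen f H))]
    congr 1
    ext x
    constructor
    · rintro ⟨i, rfl⟩; exact ⟨i, rfl⟩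
    · rintro ⟨i, hi⟩; exact ⟨i, Subtype.ext hi⟩
  · refine (wr_dec f H h1 h2).of_eq fun w => ?_
    have := vl_map S.subtype (fun i => ⟨gen f H i, hm i⟩) w
    change vl (gen f H) w = _ at this
    rw [this]
    exact map_eq_one_iff _ S.subtype_injective
  · intro a b h
    exact SemidirectProduct.inr_injective (congrArg Subtype.val h)
  · rw [← Subgroup.orderOf_coe]
    change orderOf (SemidirectProduct.inl (lamp H) : Wr H) = 2
    rw [orderOf_injective _ SemidirectProduct.inl_injective]
    exact orderOf_eq_prime (by rw [pow_two, lamp_sq]) (lamp_ne H)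
  · rw [← lamp_comm]
    exact ⟨fun h => Subtype.ext h, fun h => congrArg Subtype.val h⟩

/-- the converse: a centraliser in a finitely presented simple overgroup is decidable -/
theorem mem_dec (f : Fin n → G) (H : Subgroup G) (K : Type) [Group K] (hK : IsSimpleGroup K)
    (hKp : Group.IsFinitelyPresented K) (ψ : G →* K) (t : K) (h : ∀ g, g ∈ H ↔ Commute (ψ g) t) :
    ComputablePred fun w : List (Fin n × Bool) => vl f w ∈ H := by
  let f' : Fin (n + 1) → K := Fin.cons t fun i => ψ (f i)
  have h0 := converse f' K hK hKp (MonoidHom.id K) Function.injective_id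
  let up : List (Fin n × Bool) → List (Fin (n + 1) × Bool) := fun w =>
    w.map fun p => (p.1.succ, p.2)
  have hup : Primrec up := Primrec.list_map Primrec.id
    (Primrec₂.mk ((Primrec.dom_finite fun p : Fin n × Bool => (p.1.succ, p.2)).comp Primrec.snd))
  have e : ∀ w, vl f' (up w) = ψ (vl f w) := by
    intro w
    rw [← vl_map]
    simp only [vl, up, FreeGroup.lift_mk, List.map_map]
    rfl
  refine (CI.pcomp h0 (f := fun w => (up w ++ [(0, true)]) ++
    (FreeGroup.invRev (up w) ++ [(0, false)])) ?_).of_eq fun w => ?_
  · exact (Primrec.list_append.comp (Primrec.list_append.comp hup (Primrec.const _))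
      (Primrec.list_append.comp (primrec_invRev'.comp hup) (Primrec.const _))).to_comp
  · change vl f' _ = 1 ↔ _
    rw [vl_append, vl_append, vl_append, vl_inv, vl_single, vl_single, e, h,
      ← commutatorElement_eq_one_iff_commute, commutatorElement_def, mul_assoc (_ * _)]
    rfl

end Vale.Agent.N193
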