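import Vale.Agent.N193.Mif
import Vale.Agent.N193.Mod
import Vale.Agent.N193.Rel

set_option linter.all false

/-! Assembly. -/

namespace Vale.Agent.N193

open Vale.Agent.P193.BH TensorProduct

universe u

theorem groupStep' (A : Type) [Ring A] [Algebra (ZMod 2) A] [Nontrivial A] (hfp : FPAlg A)
    (hpi : PI A) (hc : CenterTriv A) (I : InfSum A) (L : Leav A) (hL : L.Tiny) :
    ∃ (K : Type) (_ : Group K), IsSimpleGroup K ∧ Group.IsFinitelyPresented K ∧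
      (∃ ψ : Aˣ →* K, Function.Injective ψ) ∧
      (∃ a b : K, orderOf a = 2 ∧ orderOf b = 3 ∧ Subgroup.closure {a, b} = ⊤) ∧
      ∀ (k : ℕ) (w : Monoid.Coprod K (FreeGroup (Fin k))), w ≠ 1 → ∃ x : Fin k → K,
        Monoid.Coprod.lift (MonoidHom.id K) (FreeGroup.lift x) w ≠ 1 := by
  haveI := charP_two A
  have h3 : 3 ≤ Fintype.card Ix := by simp
  refine ⟨EGrp Ix A, inferInstance, egrp_simple Ix A h3 hpi hc L hL, ?_,
    exists_embed Ix A h3 I, mod_gen hfp L hL, fun k => mif hpi hc L hL (Fin k)⟩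
  haveI : Group.IsFinitelyPresented (St Ix A) := by
    refine FP.st_fp_gen ?_ A hfp
    intro i j k l
    have hc : ({i, j, k, l} : Finset Ix).card < (Finset.univ : Finset Ix).card :=
      lt_of_le_of_lt Finset.card_le_four (by simp)
    obtain ⟨q, -, hq⟩ := Finset.exists_mem_notMem_of_card_lt_card hc
    simp only [Finset.mem_insert, Finset.mem_singleton, not_or] at hq
    exact ⟨q, hq.1, hq.2.1, hq.2.2.1, hq.2.2.2⟩
  exact Group.IsFinitelyPresented.equiv (MonoidHom.ofInjective (toGL_injective I L hL h3))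

theorem strong {n : ℕ} {G : Type u} [Group G] (f : Fin n → G)
    (hdec : ComputablePred fun w : List (Fin n × Bool) =>
      FreeGroup.lift f (FreeGroup.mk w) = 1) (hf : Subgroup.closure (Set.range f) = ⊤) :
    ∃ (K : Type) (_ : Group K), IsSimpleGroup K ∧ Group.IsFinitelyPresented K ∧
      (∃ ψ : G →* K, Function.Injective ψ) ∧
      (∃ a b : K, orderOf a = 2 ∧ orderOf b = 3 ∧ Subgroup.closure {a, b} = ⊤) ∧
      ∀ (k : ℕ) (w : Monoid.Coprod K (FreeGroup (Fin k))), w ≠ 1 → ∃ x : Fin k → K,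
        Monoid.Coprod.lift (MonoidHom.id K) (FreeGroup.lift x) w ≠ 1 := by
  obtain ⟨T, Q, _, _, M, tgt, hM⟩ := exists_machine f (by simpa only [ev_eq] using hdec)
  obtain ⟨R, _, _, hRn, hRfp, ⟨S, hS⟩, ⟨ψ, hψ⟩⟩ := machineRing f hf M tgt hM
  obtain ⟨A, _, _, hAn, hAfp, ⟨CA, hCA⟩, ⟨IA⟩⟩ := houghtonAlg
  obtain ⟨L, _, _, hLn, hLfp, ⟨CL, hCL⟩, ⟨l, hl⟩⟩ := leavitt
  obtain ⟨C, hC⟩ := hCA.tensor hCL
  haveI : Nontrivial (A ⊗[ZMod 2] L) := nontrivial_tensor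
  haveI : Nontrivial (R ⊗[ZMod 2] (A ⊗[ZMod 2] L)) := nontrivial_tensor
  obtain ⟨l1, hl1⟩ := (l.tiny_of_adjoin hl).tensor (R := A)
  obtain ⟨l2, hl2⟩ := hl1.tensor (R := R)
  obtain ⟨I1⟩ := InfSum.tensor_right (R := L) IA
  obtain ⟨I2⟩ := InfSum.tensor_left (R := R) I1
  obtain ⟨ψ', hψ'⟩ := units_tensor (R := R) (B := A ⊗[ZMod 2] L)
  have hpi : PI (R ⊗[ZMod 2] (A ⊗[ZMod 2] L)) := hS.pi_tensor hC.pi
  have hce : CenterTriv (R ⊗[ZMod 2] (A ⊗[ZMod 2] L)) := hS.center_tensor hC.center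
  have hfp : FPAlg (R ⊗[ZMod 2] (A ⊗[ZMod 2] L)) := hRfp.tensor (hAfp.tensor hLfp)
  obtain ⟨K, iK, hK1, hK2, ⟨χ, hχ⟩, hK3⟩ := groupStep' _ hfp hpi hce I2 l2 hl2
  exact ⟨K, iK, hK1, hK2, ⟨(χ.comp ψ').comp ψ, (hχ.comp hψ').comp hψ⟩, hK3⟩

theorem relative {n : ℕ} {G : Type u} [Group G] (f : Fin n → G) (H : Subgroup G)
    (hf : Subgroup.closure (Set.range f) = ⊤) :
    ((ComputablePred fun w : List (Fin n × Bool) => FreeGroup.lift f (FreeGroup.mk w) = 1) ∧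
      ComputablePred fun w : List (Fin n × Bool) => FreeGroup.lift f (FreeGroup.mk w) ∈ H) ↔
    ∃ (K : Type) (_ : Group K), IsSimpleGroup K ∧ Group.IsFinitelyPresented K ∧
      ∃ (ψ : G →* K) (t : K), Function.Injective ψ ∧ orderOf t = 2 ∧
        ∀ g : G, g ∈ H ↔ ψ g * t = t * ψ g := by
  constructor
  · rintro ⟨h1, h2⟩
    obtain ⟨Γ, _, f', hf', hd, ψ, t, hψ, ht, hH⟩ := exists_over f H hf h1 h2
    obtain ⟨K, iK, hK1, hK2, χ, hχ⟩ := booneHigman f' hf' hd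
    refine ⟨K, iK, hK1, hK2, χ.comp ψ, χ t, hχ.comp hψ, by rw [orderOf_injective χ hχ, ht],
      fun g => ?_⟩
    rw [hH, MonoidHom.comp_apply, ← map_mul, ← map_mul, hχ.eq_iff]
    rfl
  · rintro ⟨K, iK, hK1, hK2, ψ, t, hψ, -, hH⟩
    exact ⟨Vale.Agent.P193.H870.converse f K hK1 hK2 ψ hψ, mem_dec f H K hK1 hK2 ψ t hH⟩

end Vale.Agent.N193
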