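import Vale.Agent.N193.Fr
import Mathlib.GroupTheory.Coprod.Basic

set_option linter.all false

/-! The elementary group is mixed identity free. -/

namespace Vale.Agent.N193

open Matrix Vale.Agent.P193.BH Monoid

section nf
variable {G H : Type} [Group G] [Group H]

/-- the word `g 0 * h 0 * g 1 * ... * h (n-1) * g n` -/
def W (g : ℕ → G) (h : ℕ → H) : ℕ → Coprod G H
  | 0 => Coprod.inl (g 0)
  | n + 1 => W g h n * Coprod.inr (h n) * Coprod.inl (g (n + 1))

theorem W_congr {g g' : ℕ → G} {h h' : ℕ → H} : ∀ n, (∀ i ≤ n, g i = g' i) →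
    (∀ i < n, h i = h' i) → W g h n = W g' h' n
  | 0, e, _ => by simp only [W, e 0 le_rfl]
  | n + 1, e, e' => by
    simp only [W]
    rw [W_congr n (fun i hi => e i (by omega)) (fun i hi => e' i (by omega)), e _ le_rfl,
      e' n (by omega)]

theorem exists_nf (w : Coprod G H) : ∃ (k : ℕ) (g : ℕ → G) (h : ℕ → H), w = W g h k ∧
    (∀ i < k, h i ≠ 1) ∧ ∀ i, 0 < i → i < k → g i ≠ 1 := by
  classical
  induction w using Submonoid.induction_of_closure_eq_top_right
    (Coprod.mclosure_range_inl_union_inr (M := G) (N := H)) with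
  | one => exact ⟨0, fun _ => 1, fun _ => 1, by simp [W], by simp, by simp⟩
  | mul_right x y hy ih =>
    obtain ⟨k, g, h, rfl, h1, h2⟩ := ih
    rcases hy with ⟨a, rfl⟩ | ⟨b, rfl⟩
    · refine ⟨k, Function.update g k (g k * a), h, ?_, h1, fun i hi hik => ?_⟩
      · cases k with
        | zero => simp [W]
        | succ n =>
          simp only [W, Function.update_self, map_mul, mul_assoc]
          rw [W_congr (g' := Function.update g (n + 1) (g (n + 1) * a)) (h' := h) n
            (fun i hi => by rw [Function.update_of_ne (by omega)]) (fun _ _ => rfl)]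
      · rw [Function.update_of_ne (by omega)]; exact h2 i hi hik
    · by_cases hb : b = 1
      · subst hb; exact ⟨k, g, h, by simp, h1, h2⟩
      by_cases hk : k = 0 ∨ g k ≠ 1
      · refine ⟨k + 1, Function.update g (k + 1) 1, Function.update h k b, ?_, fun i hi => ?_,
          fun i hi hik => ?_⟩
        · simp only [W, Function.update_self, map_one, mul_one]
          rw [W_congr (g' := Function.update g (k + 1) 1) (h' := Function.update h k b) k
            (fun i hi => by rw [Function.update_of_ne (by omega)])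
            (fun i hi => by rw [Function.update_of_ne (by omega)])]
        · by_cases e : i = k
          · subst e; rwa [Function.update_self]
          · rw [Function.update_of_ne e]; exact h1 i (by omega)
        · rw [Function.update_of_ne (by omega)]
          by_cases e : i = k
          · subst e; exact hk.resolve_left (by omega)
          · exact h2 i hi (by omega)
      · push Not at hk
        obtain ⟨n, rfl⟩ := Nat.exists_eq_succ_of_ne_zero hk.1
        by_cases hc : h n * b = 1
        · refine ⟨n, g, h, ?_, fun i hi => h1 i (by omega), fun i hi hik => h2 i hi (by omega)⟩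
          simp only [W, hk.2, map_one, mul_one]
          rw [mul_assoc, ← map_mul, hc, map_one, mul_one]
        · refine ⟨n + 1, g, Function.update h n (h n * b), ?_, fun i hi => ?_, h2⟩
          · simp only [W, hk.2, map_one, mul_one, Function.update_self, map_mul, mul_assoc]
            rw [W_congr (g' := g) (h' := Function.update h n (h n * b)) n (fun _ _ => rfl)
              (fun i hi => by rw [Function.update_of_ne (by omega)])]
          · by_cases e : i = n
            · subst e; rwa [Function.update_self]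
            · rw [Function.update_of_ne e]; exact h1 i hi

theorem exists_finite_quot [Group.ResiduallyFinite H] (h : ℕ → H) : ∀ k, (∀ i < k, h i ≠ 1) →
    ∃ N : Subgroup H, N.Normal ∧ N.FiniteIndex ∧ ∀ i < k, h i ∉ N
  | 0, _ => ⟨⊤, inferInstance, inferInstance, by simp⟩
  | k + 1, hk => by
    obtain ⟨N, _, _, hN⟩ := exists_finite_quot h k fun i hi => hk i (by omega)
    obtain ⟨M, hM⟩ := Group.exists_finiteIndexNormalSubgroup_notMem (h k) (hk k (by omega))
    refine ⟨N ⊓ M.toSubgroup, inferInstance, inferInstance, fun i hi hm => ?_⟩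
    by_cases e : i = k
    · subst e; exact hM hm.2
    · exact hN i (by omega) hm.1

/-- free groups are residually finite -/
theorem freeGroup_rf (X : Type) : Group.ResiduallyFinite (FreeGroup X) := by
  classical
  refine Group.residuallyFinite_of_forall_exists_finite_monoidHom.{0} fun w hw => ?_
  obtain ⟨L, rfl⟩ := Quot.exists_rep w
  change FreeGroup.mk L ≠ 1 at hw
  set S : Set (FreeGroup X) := FreeGroup.mk '' {l | l <:+ L} with hS
  have hfin : S.Finite := by
    refine Set.Finite.image _ ((List.finite_toSet L.tails).subset fun l hl => ?_)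
    simpa using hl
  haveI : Finite S := hfin
  have hσ : ∀ x : X, ∃ σ : Equiv.Perm S, ∀ (s : S) (hs : FreeGroup.of x * s.1 ∈ S),
      σ s = ⟨_, hs⟩ := by
    intro x
    obtain ⟨σ, hσ⟩ := Equiv.Perm.exists_extending_pair
      (α := {s : S // FreeGroup.of x * s.1 ∈ S}) (β := S) (f := fun s => s.1)
      (g := fun s => ⟨_, s.2⟩) Subtype.val_injective (fun s t e => by
        apply Subtype.ext; apply Subtype.ext
        exact mul_left_cancel (congrArg Subtype.val e))
    exact ⟨σ, fun s hs => hσ ⟨s, hs⟩⟩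
  choose σ hσ using hσ
  have h1 : (1 : FreeGroup X) ∈ S := ⟨[], List.nil_suffix, rfl⟩
  have key : ∀ (l : List (X × Bool)) (hl : l <:+ L),
      FreeGroup.lift σ (FreeGroup.mk l) ⟨1, h1⟩ = ⟨FreeGroup.mk l, l, hl, rfl⟩ := by
    intro l
    induction l with
    | nil => intro _; rfl
    | cons p l ih =>
      intro hl
      have hl' : l <:+ L := (List.suffix_cons p l).trans hl
      have e : FreeGroup.mk (p :: l) = FreeGroup.mk [p] * FreeGroup.mk l := by
        rw [FreeGroup.mul_mk]; rfl
      obtain ⟨x, b⟩ := p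
      have hm : FreeGroup.mk ((x, b) :: l) ∈ S := ⟨_, hl, rfl⟩
      have e1 : FreeGroup.lift σ (FreeGroup.mk ((x, b) :: l)) ⟨1, h1⟩ =
          FreeGroup.lift σ (FreeGroup.mk [(x, b)]) ⟨FreeGroup.mk l, l, hl', rfl⟩ := by
        rw [e, map_mul, Equiv.Perm.mul_apply, ih hl']
      rw [e1]
      cases b with
      | true =>
        change FreeGroup.lift σ (FreeGroup.of x) _ = _
        rw [FreeGroup.lift_apply_of, hσ x _ (by rw [e] at hm; exact hm)]
        exact Subtype.ext e.symm
      | false =>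
        have e2 : FreeGroup.mk [(x, false)] = (FreeGroup.of x)⁻¹ := rfl
        rw [e2, map_inv, FreeGroup.lift_apply_of, Equiv.Perm.inv_eq_iff_eq]
        have e3 : FreeGroup.of x * FreeGroup.mk ((x, false) :: l) = FreeGroup.mk l := by
          rw [e, e2, mul_inv_cancel_left]
        rw [hσ x ⟨_, hm⟩ (by rw [e3]; exact ⟨l, hl', rfl⟩)]
        exact Subtype.ext e3.symm
  refine ⟨Equiv.Perm S, inferInstance, inferInstance, FreeGroup.lift σ, fun e => hw ?_⟩
  have := key L List.suffix_rfl
  change FreeGroup.lift σ (FreeGroup.mk L) = 1 at e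
  rw [e] at this
  exact (congrArg Subtype.val this).symm

end nf

section main
variable {ι A : Type} [Ring A] [Fintype ι] [DecidableEq ι]

/-- right multiple of a vector -/
def rs (u : ι → A) (q : A) : ι → A := fun i => u i * q

theorem dot_rs (f u : ι → A) (q : A) : f ⬝ᵥ rs u q = (f ⬝ᵥ u) * q := by
  simp only [dotProduct, rs, Finset.sum_mul, mul_assoc]

theorem mulVec_rs (M : Matrix ι ι A) (u : ι → A) (q : A) : M *ᵥ rs u q = rs (M *ᵥ u) q := by
  ext i; exact dot_rs _ u q

theorem smul_dot (p : A) (f u : ι → A) : (p • f) ⬝ᵥ u = p * (f ⬝ᵥ u) := by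
  simp only [dotProduct, Pi.smul_apply, smul_eq_mul, Finset.mul_sum, mul_assoc]

/-- a matrix different from one moves some vector to an independent one -/
theorem indep [Nontrivial A] [Nontrivial ι] (hpi : PI A) (hc : CenterTriv A)
    (g : (Matrix ι ι A)ˣ) : ∃ u φ ψ : ι → A, φ ⬝ᵥ u = 1 ∧ ψ ⬝ᵥ (g.val *ᵥ u) = 1 ∧
      (g ≠ 1 → φ ⬝ᵥ (g.val *ᵥ u) = 0 ∧ ψ ⬝ᵥ u = 0) := by
  by_cases hg : g = 1
  · obtain ⟨i⟩ : Nonempty ι := inferInstance
    exact ⟨Pi.single i 1, Pi.single i 1, Pi.single i 1, by simp, by simp [hg], fun h => absurd hg h⟩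
  have h0 : ∃ u φ ψ : ι → A, φ ⬝ᵥ u = 1 ∧ ψ ⬝ᵥ u = 0 ∧ ψ ⬝ᵥ (g.val *ᵥ u) ≠ 0 := by
    by_cases hd : ∀ k i, k ≠ i → g.val k i = 0
    · obtain ⟨i, j, r, hij, hne⟩ := exists_not_comm_single Fintype.one_lt_card hc g hg
      refine ⟨Pi.single j 1 + Pi.single i r, Pi.single j 1, Pi.single i 1 - Pi.single j r,
        by simp [hij.symm], by simp [hij, hij.symm], fun h => hne ?_⟩
      simp only [mulVec_add, sub_dotProduct, single_dotProduct, Pi.add_apply, one_mul,
        mulVec_single, Pi.smul_apply, col_apply, MulOpposite.smul_eq_mul_unop,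
        MulOpposite.unop_op, mul_one, hd i j hij, hd j i hij.symm, zero_add, zero_mul,
        add_zero] at h
      ext a b
      by_cases ha : a = i
      · subst ha
        by_cases hb : b = j
        · subst hb
          rw [mul_single_apply_same, single_mul_apply_same]
          exact sub_eq_zero.1 h
        · rw [mul_single_apply_of_ne _ _ _ _ _ hb, single_mul_apply_same, hd j b (Ne.symm hb),
            mul_zero]
      · rw [single_mul_apply_of_ne _ _ _ _ _ ha]
        by_cases hb : b = j
        · subst hb; rw [mul_single_apply_same, hd a i ha, zero_mul]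
        · rw [mul_single_apply_of_ne _ _ _ _ _ hb]
    · push Not at hd
      obtain ⟨k, i, hki, hne⟩ := hd
      exact ⟨Pi.single i 1, Pi.single i 1, Pi.single k 1, by simp, by simp [hki],
        by simpa using hne⟩
  obtain ⟨u, φ, ψ, h1, h2, h3⟩ := h0
  obtain ⟨p, q, hpq⟩ := hpi _ h3
  set c := ψ ⬝ᵥ (g.val *ᵥ u) with hcdef
  have a1 : (p • ψ) ⬝ᵥ (g.val *ᵥ rs u q) = 1 := by
    rw [mulVec_rs, dot_rs, smul_dot, ← hcdef, hpq]
  have a2 : (p • ψ) ⬝ᵥ rs u q = 0 := by rw [dot_rs, smul_dot, h2, mul_zero, zero_mul]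
  have a3 : ((p * c) • φ) ⬝ᵥ rs u q = 1 := by rw [dot_rs, smul_dot, h1, mul_one, hpq]
  refine ⟨rs u q, (p * c) • φ - (((p * c) • φ) ⬝ᵥ (g.val *ᵥ rs u q)) • (p • ψ), p • ψ, ?_, a1,
    fun _ => ⟨?_, a2⟩⟩
  · rw [sub_dotProduct, smul_dot _ (p • ψ), a2, a3, mul_zero, sub_zero]
  · rw [sub_dotProduct, smul_dot _ (p • ψ), a1, mul_one, sub_self]

theorem mif_rf [Nontrivial A] [CharP A 2] [Nontrivial ι] (hpi : PI A) (hc : CenterTriv A)
    (L : Leav A) (hL : L.Tiny) (H : Type) [Group H] [Group.ResiduallyFinite H]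
    (w : Coprod (EGrp ι A) H) (hw : w ≠ 1) :
    ∃ φ : H →* EGrp ι A, Coprod.lift (MonoidHom.id _) φ w ≠ 1 := by
  classical
  obtain ⟨k, g, h, rfl, hh, hg⟩ := exists_nf w
  by_cases hk : k = 0
  · subst hk
    refine ⟨1, fun e => hw ?_⟩
    simp only [W, Coprod.lift_apply_inl, MonoidHom.id_apply] at e
    simp only [W, e, map_one]
  obtain ⟨N, _, _, hN⟩ := exists_finite_quot h k hh
  set Q := H ⧸ N with hQ
  haveI : Finite Q := Subgroup.finite_quotient_of_finiteIndex
  haveI : Fintype Q := Fintype.ofFinite Q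
  set ρ : H →* Q := QuotientGroup.mk' N with hρ
  have hρ1 : ∀ i < k, ρ (h i) ≠ 1 := fun i hi e => hN i hi ((QuotientGroup.eq_one_iff _).1 e)
  choose U Φ Ψ hU1 hU2 hU3 using fun n : ℕ => indep hpi hc (g n).1
  have hU4 : ∀ n, 0 < n → n < k → Φ n ⬝ᵥ ((g n).1.val *ᵥ U n) = 0 ∧ Ψ n ⬝ᵥ U n = 0 :=
    fun n h1 h2 => hU3 n fun e => hg n h1 h2 (Subtype.ext e)
  obtain ⟨j⟩ : Nonempty ι := inferInstance
  set e : ι → A := Pi.single j 1 with he
  let v0 : Fin k × Q → ι → A := fun a =>
    if a.2 = 1 then (g (a.1 + 1)).1.val *ᵥ U (a.1 + 1) else if a.2 = ρ (h a.1) then U a.1 else e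
  let f0 : Fin k × Q → ι → A := fun a =>
    if a.2 = 1 then Ψ (a.1 + 1) else if a.2 = ρ (h a.1) then Φ a.1 else e
  let bl : Fin k × Q → Option (ℕ ⊕ Fin k × Q) := fun a =>
    some (if a.2 = 1 then .inl (a.1 + 1) else if a.2 = ρ (h a.1) then .inl a.1 else .inr a)
  have hdual : ∀ a b, bl a = bl b → f0 a ⬝ᵥ v0 b = if a = b then 1 else 0 := by
    rintro ⟨i, q⟩ ⟨i', q'⟩ hb
    simp only [bl, Option.some.injEq] at hb
    simp only [f0, v0]
    by_cases h1 : q = 1
    · rw [if_pos h1] at hb ⊢
      by_cases h2 : q' = 1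
      · rw [if_pos h2] at hb ⊢
        have : i = i' := Fin.ext (by simpa using hb)
        subst this
        rw [hU2, if_pos (by rw [h1, h2])]
      · rw [if_neg h2] at hb ⊢
        by_cases h3 : q' = ρ (h i')
        · rw [if_pos h3] at hb ⊢
          have e1 : (i : ℕ) + 1 = i' := by simpa using hb
          rw [e1, (hU4 i' (by omega) i'.2).2, if_neg]
          intro e2; exact h2 ((Prod.mk.inj e2).2.symm.trans h1)
        · rw [if_neg h3] at hb; cases hb
    · rw [if_neg h1] at hb ⊢
      by_cases h4 : q = ρ (h i)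
      · rw [if_pos h4] at hb ⊢
        by_cases h2 : q' = 1
        · rw [if_pos h2] at hb ⊢
          have e1 : (i : ℕ) = i' + 1 := by simpa using hb
          rw [← e1, (hU4 i (by omega) i.2).1, if_neg]
          intro e2; exact h1 ((Prod.mk.inj e2).2.trans h2)
        · rw [if_neg h2] at hb ⊢
          by_cases h3 : q' = ρ (h i')
          · rw [if_pos h3] at hb ⊢
            have : i = i' := Fin.ext (by simpa using hb)
            subst this
            rw [hU1, if_pos (by rw [h3, h4])]
          · rw [if_neg h3] at hb; cases hb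
      · rw [if_neg h4] at hb ⊢
        by_cases h2 : q' = 1
        · rw [if_pos h2] at hb; cases hb
        · rw [if_neg h2] at hb ⊢
          by_cases h3 : q' = ρ (h i')
          · rw [if_pos h3] at hb; cases hb
          · rw [if_neg h3] at hb ⊢
            rw [if_pos (Sum.inr.inj hb), he]; simp
  have hRfin : (Set.range (fun p : (Fin k × Q) × (Fin k × Q) => f0 p.1 ⬝ᵥ v0 p.2) ∪
      Set.range (fun a => v0 a j) ∪ Set.range (fun a => f0 a j) ∪
      {Φ k ⬝ᵥ ((g 0).1.val *ᵥ U 0)}).Finite :=
    (((Set.finite_range _).union (Set.finite_range _)).union (Set.finite_range _)).union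
      (Set.finite_singleton _)
  have hSfin : (Set.range bl ∪ {none, some (.inl 0), some (.inl k)}).Finite :=
    (Set.finite_range _).union (Set.toFinite _)
  obtain ⟨wd, hwd⟩ := loc L hL hRfin hSfin
  let V : Matrix ι (Fin k × Q) A := fun i a => v0 a i * L.sw (wd (bl a))
  let Θ : Matrix (Fin k × Q) ι A := fun a i => L.tw (wd (bl a)) * f0 a i
  have hΘV : Θ * V = 1 := by
    ext a b
    have e1 : (Θ * V) a b = L.tw (wd (bl a)) * (f0 a ⬝ᵥ v0 b) * L.sw (wd (bl b)) := by
      rw [Matrix.mul_apply]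
      simp only [Θ, V, dotProduct, Finset.mul_sum, Finset.sum_mul, mul_assoc]
    rw [e1, one_apply]
    by_cases hb : bl a = bl b
    · rw [hdual a b hb, hb]
      split_ifs
      · rw [mul_one, L.tw_sw_self_a6]
      · rw [mul_zero, zero_mul]
    · rw [hwd _ (Or.inl ⟨a, rfl⟩) _ (Or.inl ⟨b, rfl⟩) hb _
        (Or.inl (Or.inl (Or.inl ⟨(a, b), rfl⟩))), if_neg (fun e => hb (by rw [e]))]
  obtain ⟨P, hP⟩ := exists_perm_hom V Θ hΘV j (L.tw_sw_self_a6 (wd none))
    (fun a => by
      have := hwd none (Or.inr (by simp)) _ (Or.inl ⟨a, rfl⟩) (by simp [bl]) _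
        (Or.inl (Or.inl (Or.inr ⟨a, rfl⟩)))
      rwa [mul_assoc] at this)
    (fun a => hwd _ (Or.inl ⟨a, rfl⟩) none (Or.inr (by simp)) (by simp [bl]) _
        (Or.inl (Or.inr ⟨a, rfl⟩)))
  let act : H →* Equiv.Perm (Fin k × Q) :=
    { toFun := fun x => Equiv.prodCongr (Equiv.refl _) (Equiv.mulLeft (ρ x))
      map_one' := by ext a <;> simp
      map_mul' := fun x y => by ext a <;> simp [mul_assoc] }
  let y : ℕ → ι → A := fun n => rs (U n) (L.sw (wd (some (.inl n))))
  have step : ∀ n < k, (P (act (h n))).1.val *ᵥ ((g (n + 1)).1.val *ᵥ y (n + 1)) = y n := by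
    intro n hn
    have e1 : (g (n + 1)).1.val *ᵥ y (n + 1) = fun i => V i (⟨n, hn⟩, 1) := by
      simp only [y]
      rw [mulVec_rs]
      ext i
      simp only [V, v0, bl, if_true, rs]
    rw [e1, hP]
    ext i
    have e2 : act (h n) (⟨n, hn⟩, 1) = (⟨n, hn⟩, ρ (h n)) := by simp [act]
    rw [e2]
    simp only [V, v0, bl, if_neg (hρ1 n hn), if_true, y, rs]
  have key : ∀ n ≤ k, (Coprod.lift (MonoidHom.id _) (P.comp act) (W g h n)).1.val *ᵥ y n =
      (g 0).1.val *ᵥ y 0 := by
    intro n
    induction n with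
    | zero => intro _; rfl
    | succ n ih =>
      intro hn
      rw [← ih (by omega), ← step n (by omega)]
      simp only [W, map_mul, Coprod.lift_apply_inl, Coprod.lift_apply_inr, MonoidHom.id_apply,
        MonoidHom.comp_apply, Subgroup.coe_mul, Units.val_mul, mulVec_mulVec, mul_assoc]
  refine ⟨P.comp act, fun e1 => ?_⟩
  have e2 := key k le_rfl
  rw [e1] at e2
  have e3 : y k = (g 0).1.val *ᵥ y 0 := by simpa using e2
  have e4 : L.tw (wd (some (.inl k))) * (Φ k ⬝ᵥ y k) = 1 := by
    simp only [y]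
    rw [dot_rs, hU1, one_mul, L.tw_sw_self_a6]
  rw [e3] at e4
  simp only [y] at e4
  rw [mulVec_rs, dot_rs, ← mul_assoc, hwd _ (Or.inr (by simp)) _ (Or.inr (by simp))
    (by simpa using hk) _ (Or.inr rfl)] at e4
  exact zero_ne_one e4

/-- no mixed identity, in any number of variables -/
theorem mif [Nontrivial A] [CharP A 2] [Nontrivial ι] (hpi : PI A) (hc : CenterTriv A)
    (L : Leav A) (hL : L.Tiny) (X : Type) (w : Coprod (EGrp ι A) (FreeGroup X)) (hw : w ≠ 1) :
    ∃ x : X → EGrp ι A, Coprod.lift (MonoidHom.id _) (FreeGroup.lift x) w ≠ 1 := by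
  haveI := freeGroup_rf X
  obtain ⟨φ, hφ⟩ := mif_rf hpi hc L hL (FreeGroup X) w hw
  refine ⟨fun a => φ (FreeGroup.of a), ?_⟩
  have : FreeGroup.lift (fun a => φ (FreeGroup.of a)) = φ := by ext a; simp
  rwa [this]

end main

end Vale.Agent.N193
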