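import Vale.Agent.N193.Fr

set_option linter.all false

/-! Tools for finding generators of the elementary group. -/

namespace Vale.Agent.N193

open Matrix Vale.Agent.P193.BH
open scoped commutatorElement

section spread
variable {ι A : Type} [Ring A] [Fintype ι] [DecidableEq ι] {S : Subgroup (Matrix ι ι A)ˣ}

theorem spread_abs (h3 : ∀ i j : ι, ∃ l, l ≠ i ∧ l ≠ j) {Pr : ι → ι → Prop}
    (a1 : ∀ {i j : ι}, i ≠ j → Pr i j → ∀ l, i ≠ l → Pr i l)
    (a2 : ∀ {i j : ι}, i ≠ j → Pr i j → ∀ l, l ≠ j → Pr l j)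
    {i j : ι} (hij : i ≠ j) (h : Pr i j) : ∀ i' j', i' ≠ j' → Pr i' j' := by
  intro i' j' hij'
  by_cases e : i' = j
  · obtain ⟨l, hl1, hl2⟩ := h3 i j
    exact a1 (e ▸ hl2.symm) (a2 hl1.symm (a1 hij h l hl1.symm) i' (e ▸ hl2.symm)) j' hij'
  · exact a1 e (a2 hij h i' e) j' hij'

theorem egrp_le (h3 : ∀ i j : ι, ∃ l, l ≠ i ∧ l ≠ j) {T : Set A} (hT : Subring.closure T = ⊤)
    (h1 : ∀ i j, i ≠ j → tv i j (1 : A) ∈ S) (h : ∀ r ∈ T, ∀ i j, i ≠ j → tv i j r ∈ S) :
    EGrp ι A ≤ S := by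
  have key : ∀ r ∈ Subring.closure T, ∀ i j, i ≠ j → tv i j r ∈ S := by
    intro r hr
    induction hr using Subring.closure_induction with
    | mem x hx => exact h x hx
    | zero =>
      intro i j hij
      have : (tv i j (0 : A) : (Matrix ι ι A)ˣ) = 1 := Units.ext (by simp [tv_val hij])
      rw [this]; exact one_mem _
    | one => exact h1
    | add x y _ _ hx hy => intro i j hij; rw [tv_add]; exact mul_mem (hx i j hij) (hy i j hij)
    | neg x _ hx =>
      intro i j hij
      have : (tv i j (-x) : (Matrix ι ι A)ˣ) = (tv i j x)⁻¹ :=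
        Units.ext (by rw [tv_val hij, tv_inv hij])
      rw [this]; exact inv_mem (hx i j hij)
    | mul x y _ _ hx hy =>
      intro i j hij
      obtain ⟨l, hl1, hl2⟩ := h3 i j
      rw [← tv_comm hl1.symm hl2 hij]
      exact mul_mem (mul_mem (mul_mem (hx _ _ hl1.symm) (hy _ _ hl2)) (inv_mem (hx _ _ hl1.symm)))
        (inv_mem (hy _ _ hl2))
  rw [EGrp_eq_closure]
  refine (Subgroup.closure_le _).2 ?_
  rintro _ ⟨i, j, a, hij, rfl⟩
  exact key a (by rw [hT]; trivial) i j hij

theorem pm_conj (π : Equiv.Perm ι) (i j : ι) (r : A) :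
    pm A π * single i j r * pm A π⁻¹ = single (π i) (π j) r := by
  ext a b
  rw [mul_pm]
  by_cases hb : π⁻¹ b = j
  · rw [hb, mul_single_apply_same, pm_apply, single_apply, ← hb]
    by_cases ha : a = π i
    · simp [ha]
    · simp [ha, Ne.symm ha]
  · rw [mul_single_apply_of_ne _ _ _ _ _ hb, single_apply, if_neg]
    rintro ⟨-, rfl⟩
    simp at hb

theorem InS.conj {π : Equiv.Perm ι} (hπ : (pm A).toHomUnits π ∈ S) {X : Matrix ι ι A}
    (h : InS S (1 + X)) : InS S (1 + pm A π * X * pm A π⁻¹) := by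
  have h1 : InS S (pm A π) := ⟨_, hπ, rfl⟩
  have h2 : InS S (pm A π⁻¹) := ⟨_, inv_mem hπ, by rw [← map_inv]; rfl⟩
  have := (h1.mul h).mul h2
  rwa [mul_add, add_mul, mul_one, ← map_mul, mul_inv_cancel, map_one] at this

theorem pm_injective [Nontrivial A] : Function.Injective (pm A : Equiv.Perm ι → Matrix ι ι A) := by
  rw [injective_iff_map_eq_one]
  intro π h
  ext a
  have := congrFun (congrFun h a) a
  rw [pm_apply, one_apply_eq] at this
  by_contra hne
  rw [if_neg (fun e => hne e.symm)] at this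
  exact zero_ne_one this

theorem InS.extract [CharP A 2] {κ : Type} [Fintype κ] [DecidableEq κ] {p q p' q' : κ → ι}
    {a : κ → A} (h : InS S (1 + ∑ k, single (p k) (q k) (a k)))
    (h' : InS S (1 + ∑ k, single (p' k) (q' k) (a k))) (d0 : ∀ k l, q k ≠ p l)
    (d0' : ∀ k l, q' k ≠ p' l) (d1 : ∀ k l, q' k ≠ p l) {k0 l0 : κ} (d2 : q k0 = p' l0)
    (d3 : ∀ k l, q k = p' l → k = k0 ∧ l = l0) :
    InS S (1 + single (p k0) (q' l0) (a k0 * a l0)) := by
  have z : ∀ {p q p' q' : κ → ι}, (∀ k l, q k ≠ p' l) →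
      (∑ k, single (p k) (q k) (a k)) * (∑ k, single (p' k) (q' k) (a k)) = 0 := by
    intro p q p' q' d
    rw [Finset.sum_mul_sum]
    exact Finset.sum_eq_zero fun k _ => Finset.sum_eq_zero fun l _ =>
      single_mul_single_of_ne _ _ _ _ (d k l) _
  have := h.comm h' (z d0) (z d0') (z d1)
  rw [Finset.sum_mul_sum, Finset.sum_eq_single k0, Finset.sum_eq_single l0, d2,
    single_mul_single_same] at this
  · exact this
  · intro l _ hl
    exact single_mul_single_of_ne _ _ _ _ (fun h => hl (d3 k0 l h).2) _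
  · simp
  · intro k _ hk
    exact Finset.sum_eq_zero fun l _ =>
      single_mul_single_of_ne _ _ _ _ (fun h => hk (d3 k l h).1) _
  · simp

end spread

section cyc
variable {ι : Type} [DecidableEq ι] {T : Subgroup (Equiv.Perm ι)}

open Equiv

/-- the three-cycle `u → v → w → u` lies in `T` -/
def Cy (T : Subgroup (Perm ι)) (u v w : ι) : Prop :=
  u ≠ v ∧ v ≠ w ∧ u ≠ w ∧ swap u v * swap v w ∈ T

theorem Cy.map {u v w : ι} (h : Cy T u v w) (π : Perm ι)
    (hπ : π * (swap u v * swap v w) * π⁻¹ ∈ T) : Cy T (π u) (π v) (π w) := by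
  refine ⟨π.injective.ne h.1, π.injective.ne h.2.1, π.injective.ne h.2.2.1, ?_⟩
  rw [swap_apply_apply, swap_apply_apply]
  convert hπ using 1
  group

theorem Cy.conj {u v w : ι} (h : Cy T u v w) {π : Perm ι} (hπ : π ∈ T) :
    Cy T (π u) (π v) (π w) :=
  h.map π (mul_mem (mul_mem hπ h.2.2.2) (inv_mem hπ))

theorem cy1 {u v w : ι} (h1 : u ≠ v) (h3 : u ≠ w) : (swap u v * swap v w) u = v := by
  rw [Perm.mul_apply, swap_apply_of_ne_of_ne h1 h3, swap_apply_left]

theorem cy2 {u v w : ι} (h2 : v ≠ w) (h3 : u ≠ w) : (swap u v * swap v w) v = w := by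
  rw [Perm.mul_apply, swap_apply_left, swap_apply_of_ne_of_ne h3.symm h2.symm]

theorem cy3 (u v w : ι) : (swap u v * swap v w) w = u := by
  rw [Perm.mul_apply, swap_apply_right, swap_apply_right]

theorem cy4 {u v w x : ι} (h1 : x ≠ u) (h2 : x ≠ v) (h3 : x ≠ w) :
    (swap u v * swap v w) x = x := by
  rw [Perm.mul_apply, swap_apply_of_ne_of_ne h2 h3, swap_apply_of_ne_of_ne h1 h2]

theorem Cy.rot {u v w : ι} (h : Cy T u v w) : Cy T v w u := by
  have := h.conj h.2.2.2
  rwa [cy1 h.1 h.2.2.1, cy2 h.2.1 h.2.2.1, cy3] at this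

theorem Cy.flip {u v w : ι} (h : Cy T u v w) : Cy T w v u := by
  refine ⟨h.2.1.symm, h.1.symm, h.2.2.1.symm, ?_⟩
  have := inv_mem h.2.2.2
  rwa [_root_.mul_inv_rev, swap_inv, swap_inv, swap_comm v w, swap_comm u v] at this

theorem Cy.two {u v w x : ι} (h : Cy T u v w) (h' : Cy T u v x) (hne : w ≠ x) : Cy T v w x := by
  have := h'.conj h.2.2.2
  rwa [cy1 h.1 h.2.2.1, cy2 h.2.1 h.2.2.1, cy4 h'.2.2.1.symm h'.2.1.symm hne.symm] at this

theorem Cy.join {u v w s s' : ι} (h : Cy T u v s) (h' : Cy T v w s') (hne : u ≠ w) :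
    Cy T u v w := by
  by_cases e0 : w = s
  · rwa [e0]
  by_cases e1 : s' = u
  · rw [e1] at h'; exact h'.rot.rot
  by_cases e2 : s' = s
  · rw [e2] at h'
    exact (h.flip.two h'.rot.rot hne).rot.flip.rot.rot
  · have h1 := h'.conj h.flip.rot.2.2.2
    rw [cy1 h.1.symm h.2.1, cy4 h'.1.symm hne.symm e0, cy4 h'.2.2.1.symm e1 e2] at h1
    exact (h1.flip.two h'.flip h.1).rot

/-- `u` and `v` are joined by a three-cycle of `T` -/
def Sim (T : Subgroup (Perm ι)) (u v : ι) : Prop := u = v ∨ ∃ s, Cy T u v s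

theorem Sim.symm {u v : ι} (h : Sim T u v) : Sim T v u := by
  rcases h with rfl | ⟨s, h⟩
  · exact Or.inl rfl
  · exact Or.inr ⟨s, h.flip.rot⟩

theorem Sim.trans {u v w : ι} (h : Sim T u v) (h' : Sim T v w) : Sim T u w := by
  rcases h with rfl | ⟨s, h⟩
  · exact h'
  rcases h' with rfl | ⟨s', h'⟩
  · exact Or.inr ⟨s, h⟩
  by_cases e : u = w
  · exact Or.inl e
  · exact Or.inr ⟨v, (h.join h' e).flip.rot.rot⟩

theorem Sim.cy {u v w : ι} (h : Sim T u v) (h' : Sim T v w) (h1 : u ≠ v) (h2 : v ≠ w)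
    (h3 : u ≠ w) : Cy T u v w := by
  obtain ⟨s, h⟩ := h.resolve_left h1
  obtain ⟨s', h'⟩ := h'.resolve_left h2
  exact h.join h' h3

theorem Sim.conj {u v : ι} (h : Sim T u v) {π : Perm ι} (hπ : π ∈ T) : Sim T (π u) (π v) := by
  rcases h with rfl | ⟨s, h⟩
  · exact Or.inl rfl
  · exact Or.inr ⟨_, h.conj hπ⟩

theorem two_swaps (h : ∀ u v w, u ≠ v → v ≠ w → u ≠ w → Cy T u v w) {a b c d : ι} (hab : a ≠ b)
    (hcd : c ≠ d) : swap a b * swap c d ∈ T := by
  have h' : ∀ u v w, u ≠ v → v ≠ w → swap u v * swap v w ∈ T := by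
    intro u v w h1 h2
    by_cases e : u = w
    · rw [← e, swap_comm v u, Equiv.swap_mul_self]; exact one_mem _
    · exact (h u v w h1 h2 e).2.2.2
  by_cases e : b = c
  · rw [← e] at hcd ⊢; exact h' a b d hab hcd
  · have := mul_mem (h' a b c hab e) (h' b c d e hcd)
    rwa [mul_assoc, ← mul_assoc (swap b c), Equiv.swap_mul_self, one_mul] at this

end cyc

section two
variable {A : Type} [Ring A] [Nontrivial A] [CharP A 2]

/-- a finitely presented algebra with a tiny Leavitt structure has five ring generators -/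
theorem five_gen [Algebra (ZMod 2) A] (hfp : FPAlg A) (L : Leav A) (hL : L.Tiny) :
    ∃ a : Fin (5 + 1) → A, a 0 = 1 ∧ Subring.closure (Set.range a) = ⊤ := by
  classical
  obtain ⟨σ, hσ, f, s, hf, -, -⟩ := hfp
  haveI := Fintype.ofFinite σ
  obtain ⟨w, hw⟩ := loc L hL (Set.finite_singleton (1 : A)) (Set.finite_univ (α := σ))
  set b : A := ∑ x, L.sw (w x) * f (FreeAlgebra.ι _ x) * L.tw (w x) with hb
  refine ⟨![1, L.s false, L.s true, L.t false, L.t true, b], rfl, ?_⟩
  set T := Subring.closure (Set.range ![1, L.s false, L.s true, L.t false, L.t true, b])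
  have hs : ∀ c, L.s c ∈ T := fun c => by
    cases c
    · exact Subring.subset_closure ⟨1, rfl⟩
    · exact Subring.subset_closure ⟨2, rfl⟩
  have ht : ∀ c, L.t c ∈ T := fun c => by
    cases c
    · exact Subring.subset_closure ⟨3, rfl⟩
    · exact Subring.subset_closure ⟨4, rfl⟩
  have hsw : ∀ l, L.sw l ∈ T := fun l => by
    induction l with
    | nil => exact one_mem _
    | cons c l ih => exact mul_mem (hs c) ih
  have htw : ∀ l, L.tw l ∈ T := fun l => by
    induction l with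
    | nil => exact one_mem _
    | cons c l ih => exact mul_mem ih (ht c)
  have hx : ∀ x, f (FreeAlgebra.ι _ x) ∈ T := by
    intro x
    have e : L.tw (w x) * b * L.sw (w x) = f (FreeAlgebra.ι _ x) := by
      rw [hb, Finset.mul_sum, Finset.sum_mul, Finset.sum_eq_single x]
      · simp only [← mul_assoc]
        rw [L.tw_sw_self_a6, one_mul, mul_assoc, L.tw_sw_self_a6, mul_one]
      · intro z _ hz
        have := hw x trivial z trivial hz.symm 1 rfl
        rw [mul_one] at this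
        simp only [← mul_assoc]
        rw [this]; simp
      · simp
    rw [← e]
    exact mul_mem (mul_mem (htw _) (Subring.subset_closure ⟨5, rfl⟩)) (hsw _)
  rw [eq_top_iff]
  intro r _
  obtain ⟨z, rfl⟩ := hf r
  induction z using FreeAlgebra.induction with
  | grade0 c =>
    rw [AlgHom.commutes]
    fin_cases c
    · exact (map_zero (algebraMap (ZMod 2) A)).symm ▸ zero_mem T
    · exact (map_one (algebraMap (ZMod 2) A)).symm ▸ one_mem T
  | grade1 x => exact hx x
  | mul x z hx hz => rw [map_mul]; exact mul_mem (hx trivial) (hz trivial)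
  | add x z hx hz => rw [map_add]; exact add_mem (hx trivial) (hz trivial)

end two

end Vale.Agent.N193
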